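import Vale.Agent.P218N.H.Bridge
import Vale.Agent.P218N.H.TwoSided
import Vale.Agent.P218N.C.Stmt

/-! From almost shrinkers with bounded genus to the hypotheses of blocks B and C. -/

open MeasureTheory Set Filter Topology Metric
open scoped NNReal RealInnerProductSpace ContDiff

namespace Vale.Agent.P218N.Top

open Vale.Agent.P218 Vale.Agent.P218.H313 Vale.Agent.P218N.H Vale.Agent.P218N.B
open Vale.Agent.P218.H313.A1 (dil xx)
open Vale.Agent.P218N.GB (RankC)
open Vale.Agent.P218N.C (ARm zs Shk TopS)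

set_option linter.unusedSectionVars false
set_option linter.unusedVariables false

/-- the mass of open sets is lower semicontinuous -/
theorem open_le {X : Type*} [MetricSpace X] [ProperSpace X] [MeasurableSpace X] [BorelSpace X]
    {ι : Type*} {l : Filter ι} [l.NeBot] {N : ι → Measure X} {κ : Measure X}
    [IsLocallyFiniteMeasure κ] {O : Set X} (hO : IsOpen O) {c : ℝ}
    (hw : ∀ φ : X → ℝ, Continuous φ → HasCompactSupport φ →
      Tendsto (fun i => ∫ x, φ x ∂(N i)) l (𝓝 (∫ x, φ x ∂κ)))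
    (hb : ∀ᶠ i in l, N i O ≤ ENNReal.ofReal c) : κ O ≤ ENNReal.ofReal c := by
  rw [hO.measure_eq_iSup_isCompact κ]
  refine iSup_le fun K => iSup_le fun hKO => iSup_le fun hK => ?_
  obtain ⟨φ, h1, h2, h3, h4⟩ := exists_continuous_one_zero_of_isCompact hK hO.isClosed_compl
    (disjoint_compl_right_iff_subset.2 hKO)
  have k1 : κ K ≤ ENNReal.ofReal (∫ x, φ x ∂κ) := by
    rw [ofReal_integral_eq_lintegral_ofReal (φ.continuous.integrable_of_hasCompactSupport h3)
      (Eventually.of_forall fun x => (h4 x).1), ← lintegral_indicator_one hK.measurableSet]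
    refine lintegral_mono fun x => ?_
    by_cases hx : x ∈ K
    · simp [hx, h1 hx]
    · simp [hx]
  refine k1.trans (ENNReal.ofReal_le_ofReal_iff'.2 ?_)
  have k2 : ∫ x, φ x ∂κ ≤ max c 0 := by
    refine le_of_tendsto (hw φ φ.continuous h3) ?_
    filter_upwards [hb] with i hi
    rw [integral_eq_lintegral_of_nonneg_ae (Eventually.of_forall fun x => (h4 x).1)
      φ.continuous.aestronglyMeasurable]
    refine ENNReal.toReal_le_of_le_ofReal (le_max_right _ _) ?_
    refine le_trans ?_ (hi.trans (ENNReal.ofReal_le_ofReal (le_max_left _ _)))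
    rw [← lintegral_indicator_one hO.measurableSet]
    refine lintegral_mono fun x => ?_
    by_cases hx : x ∈ O
    · simpa [hx] using (h4 x).2
    · simp [hx, h2 hx]
  rcases le_total c 0 with h | h
  · exact Or.inr (by rwa [max_eq_right h] at k2)
  · exact Or.inl (by rwa [max_eq_left h] at k2)

variable {M : Set E3}

lemma Vn_le (hM : Surf M) {T : E3 → Submodule ℝ E3} {H : E3 → E3} (h : GSlice 2 (mu M) T H)
    (R : ℝ) : Vn M (ball 0 R) ≤ ENNReal.ofReal (Real.exp (R ^ 2 / 4) * dis (mu M) T H) := by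
  have h1 : Integrable (fun x => ‖vel T H x‖ ^ 2 * rho x) (mu M) := by simpa using h.vsq 0
  rw [dis, ← integral_const_mul, ofReal_integral_eq_lintegral_ofReal (h1.const_mul _)
    (Eventually.of_forall fun x => by have := rho_pos x; positivity)]
  refine le_trans (lintegral_mono_ae ?_) (setLIntegral_le_lintegral (ball 0 R) _)
  filter_upwards [ae_restrict_mem measurableSet_ball,
    ae_restrict_of_ae (hM.vel_unique finrank_E3 h.mc)] with x hx h2
  refine ENNReal.ofReal_le_ofReal ?_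
  rw [velM, ← h2, mul_left_comm, rho, ← Real.exp_add]
  refine le_mul_of_one_le_right (by positivity) (Real.one_le_exp ?_)
  have := pow_le_pow_left₀ (norm_nonneg x) (mem_ball_zero_iff.1 hx).le 2
  linarith

lemma Hn_le (hM : Surf M) (R : ℝ) :
    Hn M (ball 0 R) ≤ 2 * Vn M (ball 0 R) + ENNReal.ofReal (R ^ 2 / 2) * mu M (ball 0 R) := by
  rw [Hn, Vn, ← lintegral_const_mul' _ _ (by norm_num), ← setLIntegral_const,
    ← lintegral_add_right _ measurable_const]
  refine lintegral_mono_ae ?_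
  filter_upwards [ae_restrict_mem measurableSet_ball,
    ae_restrict_of_ae (ae_restrict_mem hM.measurableSet)] with x hx h2
  have e : (2 : ENNReal) * ENNReal.ofReal (‖velM M x‖ ^ 2) = ENNReal.ofReal (2 * ‖velM M x‖ ^ 2) := by
    rw [ENNReal.ofReal_mul (by norm_num), ENNReal.ofReal_ofNat]
  rw [e, ← ENNReal.ofReal_add (by positivity) (by positivity)]
  refine ENNReal.ofReal_le_ofReal ((norm_Hv_sq_le hM h2).trans ?_)
  have := pow_le_pow_left₀ (norm_nonneg x) (mem_ball_zero_iff.1 hx).le 2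
  linarith

/-- the local curvature bound gives the hypotheses of block B -/
theorem seq_of {ι : Type} {U : Ultrafilter ι} {M : ι → Set E3} {κ : Measure E3} {Λ b : ℝ}
    (hΛ : 0 < Λ) (hg : ∀ᶠ i in (U : Filter ι), Good Λ (M i) ∧ EB b (M i))
    (hm : ∀ R : ℝ, ∃ C : ℝ, ∀ᶠ i in (U : Filter ι), mu (M i) (ball 0 R) ≤ ENNReal.ofReal C)
    (hv : ∀ R ε : ℝ, 0 < ε → ∀ᶠ i in (U : Filter ι), Vn (M i) (ball 0 R) ≤ ENNReal.ofReal ε)
    (lf : IsLocallyFiniteMeasure κ) (lim : ∀ φ : E3 → ℝ, Continuous φ → HasCompactSupport φ →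
      Tendsto (fun i => ∫ x, φ x ∂(mu (M i))) U (𝓝 (∫ x, φ x ∂κ))) : Seq U M κ Λ := by
  refine ⟨hΛ, hg.mono fun i hi => hi.1, fun R => ?_, hv, lf, lim⟩
  rcases le_or_gt R 0 with hR | hR
  · exact ⟨0, Eventually.of_forall fun i => by simp [En, ball_eq_empty.2 hR]⟩
  obtain ⟨C, hC⟩ := hm (2 * R)
  set Z : ENNReal := ENNReal.ofReal b * (2 * ENNReal.ofReal 1 + ENNReal.ofReal ((2 * R) ^ 2 / 2) *
    ENNReal.ofReal C + ENNReal.ofReal (R ^ 2)⁻¹ * ENNReal.ofReal C + 1) with hZ
  have hZt : Z ≠ ⊤ := by rw [hZ]; finiteness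
  refine ⟨Z.toReal, ?_⟩
  filter_upwards [hg, hC, hv (2 * R) 1 one_pos] with i h1 h2 h3
  rw [ENNReal.ofReal_toReal hZt]
  refine (h1.2 0 R hR).trans ?_
  have h4 := Hn_le h1.1.surf (2 * R)
  rw [hZ]
  gcongr
  refine h4.trans ?_
  gcongr

/-- the area measures of closed surfaces with bounded genus -/
def Gen (b : ℕ) : Set (Measure E3) :=
  {μ | ∃ M : Set E3, Surf M ∧ IsClosed M ∧ RankC M b ∧ μ = mu M}

lemma Gen.dil {b : ℕ} {μ : Measure E3} (h : μ ∈ Gen b) {lam : ℝ} (hl : 0 < lam) (x₀ : E3) :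
    dil 2 lam x₀ μ ∈ Gen b := by
  obtain ⟨M, h1, h2, h4, rfl⟩ := h
  set e := simH x₀ (inv_pos.2 hl).ne' (LinearIsometryEquiv.refl ℝ E3)
  have he : xx lam x₀ ⁻¹' M = e ⁻¹' M := rfl
  refine ⟨xx lam x₀ ⁻¹' M, h1.sim (Q := LinearIsometryEquiv.refl ℝ E3) (inv_pos.2 hl), ?_, ?_,
    dil_restrict hl x₀ M⟩
  · rw [he]; exact h2.preimage e.continuous
  · rw [he]; exact h4.homeo (e.sets rfl)

lemma exists_cls (b : ℕ) : ∃ b' : ℝ, (∀ M : Set E3, Surf M → IsClosed M → RankC M b → EB b' M) ∧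
    Gen b ⊆ cls b' := by
  obtain ⟨C, -, hC⟩ := exists_EB
  refine ⟨_, fun M => hC M b, ?_⟩
  rintro _ ⟨M, h1, h2, h3, rfl⟩
  exact ⟨M, h1, h2, hC M b h1 h2 h3, rfl⟩

/-- a sequence of slices with vanishing dissipation -/
theorem exists_seq {b : ℕ} {N : ℕ → Measure E3} {T : ℕ → E3 → Submodule ℝ E3} {H : ℕ → E3 → E3}
    {κ : Measure E3} {Λ : ℝ} (hΛ : 0 < Λ) (lf : IsLocallyFiniteMeasure κ)
    (h1 : ∀ i, N i ∈ Gen b) (h2 : ∀ i, GSlice 2 (N i) (T i) (H i))
    (h3 : ∀ i (x : E3) (r : ℝ), 0 < r → (N i).real (closedBall x r) ≤ Λ * r ^ 2)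
    (hw : WeakTendsto N κ) (hd : Tendsto (fun i => dis (N i) (T i) (H i)) atTop (𝓝 0)) :
    ARm Λ κ ∧ ∃ (U : Ultrafilter ℕ) (M : ℕ → Set E3), Seq U M κ Λ ∧ ∀ i, RankC (M i) b := by
  choose M hs hc hr hN using h1
  obtain rfl : N = fun i => mu (M i) := funext hN
  have h4 : ∀ i (x : E3) (r : ℝ), 0 < r →
      mu (M i) (closedBall x r) ≤ ENNReal.ofReal (Λ * r ^ 2) := fun i x r hr => by
    have := (h2 i).mc.fin
    exact (ENNReal.le_ofReal_iff_toReal_le (isCompact_closedBall x r).measure_lt_top.ne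
      (by positivity)).2 (h3 i x r hr)
  have h5 : ∀ i, ARm Λ (mu (M i)) := fun i x r hr =>
    (measure_mono ball_subset_closedBall).trans (h4 i x r hr)
  refine ⟨fun x r hr => open_le isOpen_ball hw (Eventually.of_forall fun i => h5 i x r hr),
    Ultrafilter.of atTop, M, ?_, hr⟩
  obtain ⟨b', hb', -⟩ := exists_cls b
  have hU : ((Ultrafilter.of atTop : Ultrafilter ℕ) : Filter ℕ) ≤ atTop := Ultrafilter.of_le _
  refine seq_of (b := b') hΛ (Eventually.of_forall fun i =>
    ⟨⟨hs i, hc i, fun x r h _ => h4 i x r h⟩, hb' _ (hs i) (hc i) (hr i)⟩) (fun R => ?_)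
    (fun R ε hε => hU ?_) lf fun φ k1 k2 => (hw φ k1 k2).mono_left hU
  · refine ⟨_, Eventually.of_forall fun i => (measure_mono (ball_subset_ball ?_)).trans
      (h5 i 0 (|R| + 1) (by positivity))⟩
    linarith [le_abs_self R]
  · have h6 := hd.const_mul (Real.exp (R ^ 2 / 4))
    rw [mul_zero] at h6
    filter_upwards [h6.eventually_le_const hε] with i hi
    exact (Vn_le (hs i) (h2 i) R).trans (ENNReal.ofReal_le_ofReal hi)

/-- a closed surface with vanishing shrinker quantity is the zero set of a shrinker function -/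
theorem exists_shr {S : Set E3} (hS : Surf S) (hc : IsClosed S) (hv : ∀ x ∈ S, velM S x = 0) :
    ∃ w : E3 → ℝ, Shr w ∧ zs w = S := by
  obtain ⟨w, h1, h2, h3⟩ := hS.exists_global hc
  have hne : ∀ x, w x = 0 → grad w x ≠ 0 := fun x hx h0 => by
    have := h3 x ((h2 x).2 hx)
    rw [h0, norm_zero] at this
    exact zero_ne_one this
  refine ⟨w, ⟨h1, hne, fun x hx => ?_⟩, Set.ext fun x => (h2 x).symm⟩
  have hxS := (h2 x).2 hx
  have hL : LocDef S {y | grad w y ≠ 0} w :=
    ⟨isOpen_ne_fun (contDiff_grad_top h1).continuous continuous_const, h1, fun _ h => h,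
      fun y _ => h2 y⟩
  obtain ⟨σ, k1, k2, k3⟩ := hL.exists_sign (hne x hx) hxS
  have k4 := hv x hxS
  rw [velM, hS.vel_eq hxS, smul_eq_zero] at k4
  rcases k4 with k4 | k4
  · rw [k2, k3, tr_smul, real_inner_smul_left, real_inner_comm] at k4
    have hσ : σ ≠ 0 := by rintro rfl; simp at k1
    refine mul_left_cancel₀ hσ ?_
    linarith
  · have := hS.norm_nu hxS
    rw [k4, norm_zero] at this
    exact absurd this zero_ne_one

end Vale.Agent.P218N.Top
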