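import Vale.Agent.P218N.Top.Flow
import Vale.Agent.P218N.Top.Seq
import Vale.Agent.P218N.B.Struct

/-! The assembly of the blocks. -/

open MeasureTheory Set Filter Topology Metric
open scoped NNReal RealInnerProductSpace ContDiff Manifold

namespace Vale.Agent.P218N.Top

open Vale.Agent.P218 Vale.Agent.P218.H313 Vale.Agent.P218N.H Vale.Agent.P218N.B Vale.Agent.P218N.G
open Vale.Agent.P218N.GB (RankC)
open Vale.Agent.P218N.C (ARm zs Shk TopS FrankelStmt EndsStmt)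

set_option linter.unusedSectionVars false
set_option linter.unusedVariables false

/-- **A8**: the genus bound passes to the limit -/
def RankStmt : Prop := ∀ (ι : Type) (U : Ultrafilter ι) (M : ι → Set E3) (κ : Measure E3) (Λ : ℝ)
  (b : ℕ) (S : Set E3), Seq U M κ Λ → (∀ᶠ i in (U : Filter ι), RankC (M i) b) → Surf S →
    IsClosed S → κ Sᶜ = 0 → (∀ x ∈ S, ∀ r : ℝ, 0 < r → 0 < κ (ball x r)) → RankC S b

/-- **block D**: a shrinker with conical and cylindrical ends has a model -/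
def ModelOfEnds : Prop := ∀ w : E3 → ℝ, Ends w → (∃ x, w x = 0) →
  ∃ (P : Type) (_ : NormedAddCommGroup P) (_ : NormedSpace ℝ P) (_ : FiniteDimensional ℝ P)
    (J : Type) (_ : Fintype J) (V : P → E3 → ℝ) (V' : P →ₗ[ℝ] (E3 → ℝ)) (psi : J → E3 → ℝ)
    (lam : P → J → ℝ) (c K : ℝ) (q : ℕ) (β : ℝ),
    Model 2 V V' psi lam c K q β ∧ ∀ x, V 0 x = 0 ↔ w x = 0

/-- at almost all times shortly before `t₀` the flow is a smooth closed embedded surface, with a
bound for the genus -/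
def AlmostSmooth (μ : ℝ → Measure E3) (t₀ : ℝ) : Prop :=
  ∃ (ε : ℝ) (b : ℕ), 0 < ε ∧ ∀ᵐ t : ℝ, t ∈ Ioo (t₀ - ε) t₀ → μ t ∈ Gen b

lemma Shr.surf {w : E3 → ℝ} (h : Shr w) : Surf (zs w) := fun p hp =>
  ⟨w, {y | grad w y ≠ 0}, h.ne p hp,
    isOpen_ne_fun (contDiff_grad_top h.smooth).continuous continuous_const, h.smooth,
    fun _ hy => hy, fun _ _ => Iff.rfl⟩

lemma mu_ball_pos {S : Set E3} (hS : Surf S) (hc : IsClosed S) {x : E3} (hx : x ∈ S) {r : ℝ}
    (hr : 0 < r) : 0 < mu S (ball x r) := by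
  have hom := om_pos 2
  obtain ⟨s, h1, h2, h3⟩ := ((densStmt S hS hc x hx (om 2 / 2) (half_lt_self hom)).and
    (Ioo_mem_nhdsGT hr)).exists
  rw [pos_iff_ne_zero]
  intro h0
  have h4 : ∫ y, H313.ker (s⁻¹ • (y - x)) ∂(mu S) = 0 := by
    refine integral_eq_zero_of_ae ?_
    filter_upwards [measure_eq_zero_iff_ae_notMem.1 h0] with y hy
    rw [mem_ball, dist_eq_norm, not_lt] at hy
    have h5 : 1 ≤ ‖s⁻¹ • (y - x)‖ := by
      rw [norm_smul, norm_inv, Real.norm_of_nonneg h2.le, ← div_eq_inv_mul, one_le_div h2]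
      linarith
    simp only [H313.ker, Pi.zero_apply]
    rw [max_eq_right (by nlinarith)]
    norm_num
  rw [h4, zero_div] at h1
  linarith

/-- every limit is a multiple of a shrinker with finite genus -/
theorem limit_eq (hS : StructStmt) (hR : RankStmt) (hF : FrankelStmt) {ι : Type}
    {U : Ultrafilter ι} {M : ι → Set E3} {κ : Measure E3} {Λ : ℝ} {b : ℕ} (h : Seq U M κ Λ)
    (hb : ∀ᶠ i in (U : Filter ι), RankC (M i) b) (hA : ARm Λ κ) :
    ∃ (w : E3 → ℝ) (k : ℕ), TopS Λ b w ∧ 1 ≤ k ∧ κ = (k : ENNReal) • mu (zs w) := by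
  obtain ⟨S, θ, h1, h2, h3, h4, h5, h6⟩ := hS ι U M κ Λ h
  obtain ⟨w, hw, rfl⟩ := exists_shr h1 h2 h3
  obtain ⟨k, hk, hκ⟩ := exists_const_mult h2 (hF w hw) h4 h5 h6
  have hle : ∀ A, mu (zs w) A ≤ κ A := fun A => by
    rw [hκ, Measure.smul_apply, smul_eq_mul]
    exact le_mul_of_one_le_left' (by exact_mod_cast hk)
  refine ⟨w, k, ⟨⟨hw, h.pos, fun x r hr => (hle _).trans (hA x r hr)⟩,
    hR ι U M κ Λ b _ h hb h1 h2 ?_ fun x hx r hr => (mu_ball_pos h1 h2 hx hr).trans_le (hle _)⟩,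
    hk, hκ⟩
  rw [hκ, Measure.smul_apply, Measure.restrict_apply h2.measurableSet.compl, compl_inter_self,
    measure_empty, smul_zero]

variable {μ : ℝ → Measure E3}

/-- every tangent flow is a multiple of a shrinker with finite genus -/
theorem Fl.limit_eq (hS : StructStmt) (hR : RankStmt) (hF : FrankelStmt) {N : ℝ → Measure E3}
    {T : ℝ → E3 → Submodule ℝ E3} {H : ℝ → E3 → E3} {s₁ Λ : ℝ} {b : ℕ}
    (h : Fl 2 N T H s₁ Λ (Gen b)) {κ : Measure E3} (hκ : κ ∈ limitSet N) :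
    ∃ (w : E3 → ℝ) (k : ℕ), TopS Λ b w ∧ 1 ≤ k ∧ κ = (k : ENNReal) • mu (zs w) := by
  obtain ⟨t, h1, h2, h3⟩ := h.exists_seq hκ
  obtain ⟨h4, U, M, h5, h6⟩ := Top.exists_seq h.pos hκ.1 (fun i => (h1 i).2.1)
    (fun i => (h1 i).2.2) (fun i => h.ratio _ (h1 i).1) h2 h3
  exact Top.limit_eq hS hR hF h5 (Eventually.of_forall h6) h4

/-- **The main theorem**, from the blocks -/
theorem unique_of_blocks (hS : StructStmt) (hO : OutStmt) (hR : RankStmt) (hF : FrankelStmt)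
    (hC : EndsStmt) (hD : ModelOfEnds) (hμ : IsIntegralBrakkeFlow 2 μ) (h0 : μ 0 univ < ⊤)
    (x₀ : E3) {t₀ : ℝ} (ht : 0 < t₀) (h : AlmostSmooth μ t₀) : TangentFlowUnique 2 μ x₀ t₀ := by
  obtain ⟨ε, b, hε, h⟩ := h
  obtain ⟨N, T, H, s₁, Λ, hN, hlim, hu⟩ := exists_fl hμ h0 x₀ ht hε h
    fun ν hν lam hl => Gen.dil hν hl x₀
  rcases (limitSet N).eq_empty_or_nonempty with he | ⟨κ, hκ⟩
  · exact hu (he ▸ subsingleton_empty)
  obtain ⟨w, k, h1, hk, rfl⟩ := hN.limit_eq hS hR hF hκ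
  rcases (zs w).eq_empty_or_nonempty with he | hne
  · refine unique_of_zero hμ h0 x₀ ht ?_
    rw [← hlim]
    simpa [he] using hκ
  obtain ⟨P, _, _, _, J, _, V, V', psi, lam, c, K, q, β, hM, hV⟩ := hD w (hC Λ b w h1) hne
  have e : {x | V 0 x = 0} = zs w := Set.ext hV
  have e' : sig 2 (V 0) = mu (zs w) := by rw [sig, e]
  obtain ⟨b', -, hb'⟩ := exists_cls b
  exact hu (hN.subsingleton finrank_E3 hM hk (by rwa [e']) hb'
    (hO b' k (V 0) c K q hM.tubeD (by rw [e]; exact Shr.surf h1.shk.shr)))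

/-- uniqueness when one tangent flow is a shrinker with conical and cylindrical ends -/
theorem unique_of_ends (hD : ModelOfEnds) (hμ : IsIntegralBrakkeFlow 2 μ) (h0 : μ 0 univ < ⊤)
    (x₀ : E3) {t₀ : ℝ} (ht : 0 < t₀) {w : E3 → ℝ} (hw : Ends w)
    (hκ : mu (zs w) ∈ tangentSlices 2 μ x₀ t₀) : TangentFlowUnique 2 μ x₀ t₀ := by
  rcases (zs w).eq_empty_or_nonempty with he | hne
  · exact unique_of_zero hμ h0 x₀ ht (by simpa [he] using hκ)
  obtain ⟨P, _, _, _, J, _, V, V', psi, lam, c, K, q, β, hM, hV⟩ := hD w hw hne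
  have e : {x | V 0 x = 0} = zs w := Set.ext hV
  exact unique_of_model_one two_pos finrank_E3 hM hμ h0 x₀ ht (by rwa [sig, e])

variable {S : Type} [TopologicalSpace S] [ChartedSpace E2 S] [IsManifold (𝓡 2) ∞ S]

/-- flows of embedded copies of a compact surface -/
theorem almostSmooth_of_emb [CompactSpace S] [T2Space S] {T : ℝ}
    (h : ∀ t ∈ Ico 0 T, ∃ X : S → E3, IsEmb X ∧ μ t = (μH[2] : Measure E3).restrict (range X))
    {t₀ : ℝ} (ht : 0 < t₀) (hT : t₀ ≤ T) : μ 0 univ < ⊤ ∧ AlmostSmooth μ t₀ := by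
  obtain ⟨b, hb⟩ := GB.rank_of_charts (X := S) (H := E2)
  constructor
  · obtain ⟨X, h1, h2⟩ := h 0 ⟨le_rfl, ht.trans_le hT⟩
    have := h1.surf.finite B.finrank_E3 (isCompact_range h1.smooth.continuous)
    rw [h2]
    exact measure_lt_top (mu (range X)) univ
  · refine ⟨t₀, b, ht, Eventually.of_forall fun t h1 => ?_⟩
    obtain ⟨X, h2, h3⟩ := h t ⟨by linarith [h1.1], h1.2.trans_le hT⟩
    exact ⟨range X, h2.surf, h2.isClosedEmbedding.isClosed_range,
      hb.rankC.homeo h2.isClosedEmbedding.isEmbedding.toHomeomorph.symm, h3⟩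

end Vale.Agent.P218N.Top
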