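import Vale.Agent.P218N.H.Bridge

/-! Families of compact surfaces which satisfy the first variation identity in time are integral
Brakke flows. -/

open MeasureTheory Set Filter Topology Metric
open scoped NNReal RealInnerProductSpace ContDiff

namespace Vale.Agent.P218N.Top

open Vale.Agent.P218 Vale.Agent.P218.H313 Vale.Agent.P218N.H Vale.Agent.P218N.B
open Vale.Agent.P214 (CountablyRectifiable IntegralVarifold weightOf)

set_option linter.unusedSectionVars false
set_option linter.unusedVariables false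

theorem rectifiable {M : Set E3} (hM : Surf M) : CountablyRectifiable 2 M := by
  have h1 : ∀ x : E3, ∃ (U : Set E3) (g : (Fin 2 → ℝ) → E3), (∃ K, LipschitzWith K g) ∧
      U ⊆ range g ∧ (x ∈ M → U ∈ 𝓝[M] x) := by
    intro x
    by_cases hx : x ∈ M
    swap
    · exact ⟨∅, fun _ => 0, ⟨0, LipschitzWith.const _⟩, empty_subset _, fun h => absurd h hx⟩
    obtain ⟨f, u, r, k, -, c, hu, -⟩ := hM.exists_tchart finrank_E3 hx univ_mem
    obtain ⟨K, O, h2, h3⟩ :=
      (contDiff_one' (f.contDiff_gr x c.smooth)).contDiffAt.exists_lipschitzOnWith (x := 0)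
    obtain ⟨g, h4, h5⟩ := h3.extend_finite_dimension
    refine ⟨f.gr x u '' O, g ∘ (EuclideanSpace.equiv (Fin 2) ℝ).symm,
      ⟨_, h4.comp (EuclideanSpace.equiv (Fin 2) ℝ).symm.lipschitz⟩, ?_, fun _ => ?_⟩
    · rintro _ ⟨y, hy, rfl⟩
      exact ⟨EuclideanSpace.equiv (Fin 2) ℝ y, by simp [h5 hy]⟩
    · have h6 := c.map_nhds (y := 0) (by simpa using c.r_pos)
      rw [show f.gr x u 0 = x by simp [Frame.gr, hu]] at h6
      rw [← h6]
      exact image_mem_map h2
  choose U g h2 h3 h4 using h1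
  obtain ⟨t, -, h5, h6⟩ := TopologicalSpace.countable_cover_nhdsWithin h4
  obtain ⟨e, he⟩ := (h5.insert 0).exists_eq_range (insert_nonempty _ _)
  refine ⟨fun i => g (e i), fun i => h2 _, ?_⟩
  rw [sdiff_eq_empty.2, measure_empty]
  intro x hx
  obtain ⟨y, hy, hxy⟩ := mem_iUnion₂.1 (h6 hx)
  obtain ⟨i, rfl⟩ := he.subset (mem_insert_of_mem _ hy)
  exact mem_iUnion.2 ⟨i, h3 _ hxy⟩

lemma weightOf_one (M : Set E3) : weightOf 2 M (fun _ => 1) = mu M := by
  simp [weightOf, mu_eq]

/-- the varifold of a closed surface -/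
noncomputable def vf {M : Set E3} (hM : Surf M) (hc : IsClosed M) :
    IntegralVarifold 2 (univ : Set E3) where
  carrier := M
  mult _ := 1
  tangent := tanP M
  carrier_subset := subset_univ _
  carrier_meas := hM.measurableSet.nullMeasurableSet
  rectifiable := rectifiable hM
  mult_meas := aemeasurable_const
  mult_pos _ _ := le_rfl
  locFinite K _ hK := by
    rw [weightOf_one]
    have := hM.finiteOnCompacts finrank_E3 hc
    exact hK.measure_lt_top
  tangent_meas := by rw [weightOf_one]; exact (hM.mc finrank_E3 hc).Tmeas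
  tangent_spec := by
    rw [weightOf_one]
    exact (ae_restrict_mem hM.measurableSet).mono fun x hx => hM.approxTangent finrank_E3 hx

lemma vf_weight {M : Set E3} (hM : Surf M) (hc : IsClosed M) : (vf hM hc).weight = mu M :=
  weightOf_one M

lemma vf_mc {M : Set E3} (hM : Surf M) (hc : IsClosed M) : IsMeanCurvature (vf hM hc) (Hv M) := by
  have h := hM.mc finrank_E3 hc
  refine ⟨?_, fun K hK => ?_, ?_, fun X hX => ?_⟩ <;> rw [vf_weight]
  · exact h.meas
  · have h1 := (h.locL2 K hK).2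
    rw [hasFiniteIntegral_iff_enorm] at h1
    simpa only [enorm_pow, enorm_norm] using h1
  · exact h.normal
  · exact h.fv X hX.1 hX.2.1

/-- the integral of a test function -/
noncomputable def II (M : ℝ → Set E3) (f : ℝ × E3 → ℝ) (t : ℝ) : ℝ := ∫ x, f (t, x) ∂(mu (M t))

/-- the right hand side of Brakke's inequality -/
noncomputable def BB (M : ℝ → Set E3) (f : ℝ × E3 → ℝ) (t : ℝ) : ℝ :=
  ∫ x, brakkeIntegrand (Hv (M t)) f t x ∂(mu (M t))

/-- compact surfaces which move by mean curvature on `[0, T)` and vanish at the time `T` -/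
structure SmFlow (M : ℝ → Set E3) (T : ℝ) : Prop where
  pos : 0 < T
  surf : ∀ t, Surf (M t)
  cpt : ∀ t, IsCompact (M t)
  empty : ∀ t, T ≤ t → M t = ∅
  deriv : ∀ f, ContDiff ℝ 1 f → ∀ t ∈ Ico 0 T, HasDerivAt (II M f) (BB M f t) t
  cont : ∀ f, ContDiff ℝ 1 f → ContinuousOn (BB M f) (Ico 0 T)

namespace SmFlow

variable {M : ℝ → Set E3} {T : ℝ} {f : ℝ × E3 → ℝ}

lemma int_sq (h : SmFlow M T) (t : ℝ) : Integrable (fun x => ‖Hv (M t) x‖ ^ 2) (mu (M t)) :=
  (h.surf t).integrableOn_compact finrank_E3 (h.cpt t) subset_rfl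
    ((h.surf t).continuousOn_Hv.norm.pow 2)

lemma fin (h : SmFlow M T) (t : ℝ) : IsFiniteMeasure (mu (M t)) :=
  (h.surf t).finite finrank_E3 (h.cpt t)

lemma BB_one (t : ℝ) : BB M (fun _ => 1) t = -∫ x, ‖Hv (M t) x‖ ^ 2 ∂(mu (M t)) := by
  simp [BB, brakkeIntegrand, integral_neg]

lemma BB_nonpos (t : ℝ) : BB M (fun _ => 1) t ≤ 0 := by
  rw [BB_one, neg_nonpos]
  exact integral_nonneg fun x => by positivity

lemma ftc (h : SmFlow M T) (hf : ContDiff ℝ 1 f) {a b : ℝ} (ha : 0 ≤ a) (hab : a ≤ b)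
    (hb : b < T) : ∫ t in a..b, BB M f t = II M f b - II M f a := by
  have hs : uIcc a b ⊆ Ico 0 T := by
    rw [uIcc_of_le hab]
    exact fun t ht => ⟨ha.trans ht.1, ht.2.trans_lt hb⟩
  exact intervalIntegral.integral_eq_sub_of_hasDerivAt (fun t ht => h.deriv f hf t (hs ht))
    ((h.cont f hf).mono hs).intervalIntegrable

/-- the mass plus the total squared curvature -/
noncomputable def GG (M : ℝ → Set E3) (t : ℝ) : ℝ := ∫ x, (1 + ‖Hv (M t) x‖ ^ 2) ∂(mu (M t))

lemma GG_eq (h : SmFlow M T) (t : ℝ) : GG M t = II M (fun _ => 1) t - BB M (fun _ => 1) t := by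
  have := h.fin t
  rw [GG, integral_add (integrable_const _) (h.int_sq t), BB_one, sub_neg_eq_add, II]

lemma extend (h : SmFlow M T) {g : ℝ → ℝ} (hg : IntegrableOn g (Ico 0 T))
    (h0 : ∀ t, T ≤ t → g t = 0) : IntegrableOn g (Ici 0) :=
  hg.of_forall_sdiff_eq_zero measurableSet_Ici fun t ht =>
    h0 t (not_lt.1 fun k => ht.2 ⟨ht.1, k⟩)

lemma int_GG (h : SmFlow M T) : IntegrableOn (GG M) (Ici 0) := by
  have hT := h.pos
  refine h.extend ?_ fun t ht => by simp [GG, h.empty t ht]
  have k0 : ∀ t, 0 ≤ II M (fun _ => 1) t := fun t => integral_nonneg fun _ => zero_le_one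
  have k1 : ∀ t ∈ Ico 0 T, II M (fun _ => 1) t ≤ II M (fun _ => 1) 0 := fun t ht => by
    have k2 := h.ftc (f := fun _ => 1) contDiff_const le_rfl ht.1 ht.2
    have k3 := intervalIntegral.integral_nonneg (μ := volume) ht.1
      (f := fun t => -BB M (fun _ => 1) t) fun u _ => neg_nonneg.2 (BB_nonpos u)
    rw [intervalIntegral.integral_neg] at k3
    linarith
  have h1 : IntegrableOn (II M fun _ => 1) (Ico 0 T) := by
    refine IntegrableOn.of_bound (by simp) (ContinuousOn.aestronglyMeasurable (fun t ht =>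
      (h.deriv _ contDiff_const t ht).continuousAt.continuousWithinAt) measurableSet_Ico)
      (II M (fun _ => 1) 0) ((ae_restrict_mem measurableSet_Ico).mono fun t ht => ?_)
    rw [Real.norm_of_nonneg (k0 t)]
    exact k1 t ht
  have h2 : IntegrableOn (BB M fun _ => 1) (Ico 0 T) := by
    rw [integrableOn_Ico_iff_integrableOn_Ioo, ← integrableOn_Ioc_iff_integrableOn_Ioo]
    have k2 : ∀ b : Ico 0 T, IntegrableOn (BB M fun _ => 1) (Ioc 0 b) := fun b =>
      (((h.cont _ contDiff_const).mono (Icc_subset_Ico_right b.2.2)).integrableOn_Icc).mono_set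
        Ioc_subset_Icc_self
    have : (comap (Subtype.val : Ico 0 T → ℝ) (𝓝 T)).NeBot :=
      mem_closure_iff_comap_neBot.1 (by rw [closure_Ico hT.ne]; exact ⟨hT.le, le_rfl⟩)
    refine integrableOn_Ioc_of_intervalIntegral_norm_bounded_right (I := II M (fun _ => 1) 0) k2
      (tendsto_comap (f := (Subtype.val : Ico 0 T → ℝ))) (Eventually.of_forall fun b => ?_)
    simp_rw [fun t => Real.norm_of_nonpos (BB_nonpos (M := M) t)]
    rw [integral_neg, ← intervalIntegral.integral_of_le b.2.1,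
      h.ftc contDiff_const le_rfl b.2.1 b.2.2]
    linarith [k0 b]
  exact (h1.sub h2).congr_fun (fun t _ => (h.GG_eq t).symm) measurableSet_Ico

lemma abs_brakke (hf : ContDiff ℝ 1 f) (hc : HasCompactSupport f) : ∃ C : ℝ,
    ∀ (H : E3 → E3) (t : ℝ) (x : E3), ‖brakkeIntegrand H f t x‖ ≤ C * (1 + ‖H x‖ ^ 2) := by
  obtain ⟨C₀, h0⟩ := hf.continuous.bounded_above_of_compact_support hc
  obtain ⟨C₁, h1⟩ := (hf.continuous_fderiv one_ne_zero).bounded_above_of_compact_support
    (hc.fderiv (𝕜 := ℝ))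
  refine ⟨C₀ + 2 * C₁, fun H t x => ?_⟩
  have hd := (hf.differentiable one_ne_zero (t, x)).hasFDerivAt
  have e1 : fderiv ℝ (fun y => f (t, y)) x (H x) = fderiv ℝ f (t, x) (0, H x) := by
    rw [show fderiv ℝ (fun y => f (t, y)) x = _ from
      (hd.comp x (hasFDerivAt_prodMk_right t x)).fderiv]
    rfl
  have e2 : _root_.deriv (fun s => f (s, x)) t = fderiv ℝ f (t, x) (1, 0) :=
    (hd.comp_hasDerivAt t ((hasDerivAt_id t).prodMk (hasDerivAt_const t x))).deriv
  have k1 := ((fderiv ℝ f (t, x)).le_opNorm (0, H x)).trans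
    (mul_le_mul_of_nonneg_right (h1 _) (norm_nonneg _))
  have k2 := ((fderiv ℝ f (t, x)).le_opNorm (1, 0)).trans
    (mul_le_mul_of_nonneg_right (h1 _) (norm_nonneg _))
  have k3 : ‖-‖H x‖ ^ 2 * f (t, x)‖ ≤ ‖H x‖ ^ 2 * C₀ := by
    rw [norm_mul, norm_neg, norm_pow, norm_norm]
    exact mul_le_mul_of_nonneg_left (h0 _) (by positivity)
  simp only [Prod.norm_mk, norm_zero, norm_nonneg, sup_of_le_right, norm_one, zero_le_one,
    sup_of_le_left, mul_one] at k1 k2
  have k4 : 0 ≤ C₀ := (norm_nonneg _).trans (h0 0)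
  have k5 : 0 ≤ C₁ := (norm_nonneg _).trans (h1 0)
  rw [brakkeIntegrand, e1, e2]
  refine norm_add₃_le.trans ?_
  nlinarith [mul_nonneg k5 (sq_nonneg (‖H x‖ - 1)), mul_nonneg k5 (sq_nonneg ‖H x‖)]

lemma int_BB (h : SmFlow M T) (hf : ContDiff ℝ 1 f) (hc : HasCompactSupport f) :
    IntegrableOn (BB M f) (Ici 0) := by
  refine h.extend ?_ fun t ht => by simp [BB, h.empty t ht]
  obtain ⟨C, hC⟩ := abs_brakke hf hc
  refine ((h.int_GG.mono_set Ico_subset_Ici_self).const_mul C).mono'
    ((h.cont f hf).aestronglyMeasurable measurableSet_Ico) (Eventually.of_forall fun t => ?_)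
  have := h.fin t
  rw [GG, ← integral_const_mul]
  exact norm_integral_le_of_norm_le (((integrable_const _).add (h.int_sq t)).const_mul C)
    (Eventually.of_forall fun x => hC _ t x)

theorem brakke (h : SmFlow M T) : IsIntegralBrakkeFlow 2 fun t => mu (M t) := by
  refine ⟨fun t _ => (h.surf t).locallyFinite finrank_E3 (h.cpt t).isClosed,
    fun t => vf (h.surf t) (h.cpt t).isClosed, fun t => Hv (M t),
    Eventually.of_forall fun t _ => ⟨vf_weight _ _, vf_mc _ _⟩, fun T' K hK => ?_,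
    fun f hf hc h0 a b ha hab => ?_⟩
  · refine lt_of_le_of_lt (lintegral_mono fun t => ?_)
      (h.int_GG.mono_set (Icc_subset_Ici_self : Icc 0 T' ⊆ Ici 0)).lintegral_lt_top
    have := h.fin t
    have k : Integrable (fun x => 1 + ‖Hv (M t) x‖ ^ 2) (mu (M t)) :=
      (integrable_const _).add (h.int_sq t)
    rw [GG, ofReal_integral_eq_lintegral_ofReal k (Eventually.of_forall fun x => by positivity)]
    refine (setLIntegral_le_lintegral _ _).trans (lintegral_mono fun x => le_of_eq ?_)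
    rw [ENNReal.ofReal_add zero_le_one (by positivity), ENNReal.ofReal_one,
      ENNReal.ofReal_pow (norm_nonneg _), ofReal_norm]
  · have hi : ∀ a b, 0 ≤ a → a ≤ b → IntervalIntegrable (BB M f) volume a b := fun a b ha hab =>
      ((h.int_BB hf hc).mono_set (by
        rw [uIcc_of_le hab]; exact fun t ht => ha.trans ht.1)).intervalIntegrable
    refine ⟨hi a b ha hab, ?_⟩
    change II M f b - II M f a ≤ ∫ t in a..b, BB M f t
    rcases lt_or_ge b T with hb | hb
    · exact (h.ftc hf ha hab hb).ge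
    have z : ∀ c, T ≤ c → c ≤ b → ∫ t in c..b, BB M f t = 0 := fun c h1 h2 => by
      rw [intervalIntegral.integral_congr (g := fun _ => 0), intervalIntegral.integral_zero]
      rw [uIcc_of_le h2]
      exact fun t ht => by simp [BB, h.empty t (h1.trans ht.1)]
    have zI : ∀ c, T ≤ c → II M f c = 0 := fun c h1 => by simp [II, h.empty c h1]
    rcases le_or_gt T a with ha' | ha'
    · rw [z a ha' hab, zI a ha', zI b hb, sub_self]
    rw [← intervalIntegral.integral_add_adjacent_intervals (hi a T ha ha'.le)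
      (hi T b h.pos.le hb), z T le_rfl hb, zI b hb, add_zero]
    have k1 := intervalIntegral.continuousOn_primitive_interval' (hi a T ha ha'.le) left_mem_uIcc
      T right_mem_uIcc
    rw [uIcc_of_le ha'.le] at k1
    have k2 : 𝓝[<] T ≤ 𝓝[Icc a T] T := nhdsWithin_le_of_mem (Icc_mem_nhdsLT ha')
    refine ge_of_tendsto (k1.tendsto.mono_left k2) ?_
    filter_upwards [Ioo_mem_nhdsLT ha'] with c hc'
    rw [h.ftc hf ha hc'.1.le hc'.2]
    exact sub_le_sub_right (integral_nonneg fun x => h0 _) _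

end SmFlow

end Vale.Agent.P218N.Top
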