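import Vale.Agent.P218N.Top.Embed
import Vale.Agent.P218N.Top.Brakke1

/-! A smooth mean curvature flow of compact embedded surfaces is an integral Brakke flow. -/

open MeasureTheory Set Filter Topology Metric
open scoped NNReal RealInnerProductSpace ContDiff Manifold

namespace Vale.Agent.P218N.Top

open Vale.Agent.P218 Vale.Agent.P218.H313 Vale.Agent.P218N.H Vale.Agent.P218N.B
open Vale.Agent.P218GA (cH cH_pos' isJac_volume normDet_eq_sqrt normDet_pos)

set_option linter.unusedSectionVars false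
set_option linter.unusedVariables false

/-- the Gram determinant of the spatial derivatives -/
noncomputable def QQ (L : ℝ × R2 →L[ℝ] R3) : ℝ :=
  ⟪L (0, ev 0), L (0, ev 0)⟫ * ⟪L (0, ev 1), L (0, ev 1)⟫ - ⟪L (0, ev 0), L (0, ev 1)⟫ ^ 2

lemma det_gram (L : ℝ × R2 →L[ℝ] R3) : (Matrix.gram ℝ fun k => L (0, ev k)).det = QQ L := by
  rw [Matrix.det_fin_two, QQ]
  simp only [Matrix.gram_apply]
  rw [real_inner_comm (L (0, ev 0)) (L (0, ev 1))]
  ring

lemma normDet_eq (L : ℝ × R2 →L[ℝ] R3) :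
    ((L.comp (ContinuousLinearMap.inr ℝ ℝ R2) : R2 →L[ℝ] R3) : R2 →ₗ[ℝ] R3).normDet = √(QQ L) := by
  rw [normDet_eq_sqrt _ (EuclideanSpace.basisFun (Fin 2) ℝ), ← det_gram]
  simp

variable {F : ℝ × R2 → R3} {t : ℝ} {y : R2}

lemma fderiv_sl (hF : DifferentiableAt ℝ F (t, y)) :
    fderiv ℝ (fun y => F (t, y)) y = (fderiv ℝ F (t, y)).comp (ContinuousLinearMap.inr ℝ ℝ R2) :=
  (hF.hasFDerivAt.comp y (hasFDerivAt_prodMk_right t y)).fderiv

/-- the evolution of the area element -/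
lemma jac_deriv (hF : ContDiffAt ℝ 2 F (t, y))
    (hinj : Function.Injective (fderiv ℝ (fun y => F (t, y)) y))
    (hn : ∀ᶠ y' in 𝓝 y, ∀ v, ⟪fderiv ℝ F (t, y') (1, 0), fderiv ℝ F (t, y') (0, v)⟫ = 0)
    (hH : fderiv ℝ F (t, y) (1, 0) = meanCurv (fun y => F (t, y)) y) :
    HasDerivAt (fun s => √(QQ (fderiv ℝ F (s, y))))
      (-‖fderiv ℝ F (t, y) (1, 0)‖ ^ 2 * √(QQ (fderiv ℝ F (t, y)))) t := by
  have hd := hF.differentiableAt (by simp)
  set D := fderiv ℝ (fderiv ℝ F) (t, y) with hD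
  have h1 : HasFDerivAt (fderiv ℝ F) D (t, y) :=
    ((hF.fderiv_right (m := 1) (by norm_num)).differentiableAt (by simp)).hasFDerivAt
  have sym : ∀ u v, D u v = D v u := hF.isSymmSndFDerivAt (by simp)
  have h2 : HasDerivAt (fun s => fderiv ℝ F (s, y)) (D (1, 0)) t :=
    HasFDerivAt.comp_hasDerivAt (f := fun s : ℝ => (s, y)) t h1
      ((hasDerivAt_id t).prodMk (hasDerivAt_const t y))
  have h3 : ∀ u, HasDerivAt (fun s => fderiv ℝ F (s, y) u) (D (1, 0) u) t := fun u => by
    simpa using h2.clm_apply (hasDerivAt_const t u)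
  have h4 : ∀ u, HasFDerivAt (fun y' => fderiv ℝ F (t, y') u)
      ((D.flip u).comp (ContinuousLinearMap.inr ℝ ℝ R2)) y := fun u => by
    have k := (h1.comp y (hasFDerivAt_prodMk_right t y)).clm_apply (hasFDerivAt_const u y)
    refine k.congr_fderiv ?_
    ext1 v
    simp
  set V := fderiv ℝ F (t, y) (1, 0) with hV
  have h5 : ∀ i j, ⟪D (1, 0) (0, ev i), fderiv ℝ F (t, y) (0, ev j)⟫
      = -⟪V, D (0, ev i) (0, ev j)⟫ := fun i j => by
    have k := ((h4 (1, 0)).inner ℝ (h4 (0, ev j))).unique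
      ((hasFDerivAt_const (0 : ℝ) y).congr_of_eventuallyEq (hn.mono fun y' hy => hy (ev j)))
    have k2 := congrArg (fun A : R2 →L[ℝ] ℝ => A (ev i)) k
    simp only [ContinuousLinearMap.comp_apply, ContinuousLinearMap.prod_apply, fderivInnerCLM_apply,
      zero_apply, ContinuousLinearMap.flip_apply, ContinuousLinearMap.inr_apply] at k2
    rw [sym (1, 0)]
    linarith
  have e1 : ∀ k, pd (fun y => F (t, y)) k y = fderiv ℝ F (t, y) (0, ev k) := fun k => by
    rw [pd, fderiv_sl hd]; rfl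
  have e2 : ∀ i j, pd (pd (fun y => F (t, y)) j) i y = D (0, ev i) (0, ev j) := fun i j => by
    have k : pd (fun y => F (t, y)) j =ᶠ[𝓝 y] fun y' => fderiv ℝ F (t, y') (0, ev j) := by
      filter_upwards [(Continuous.prodMk_right t).continuousAt.eventually (hF.eventually (by simp))]
        with y' hy
      rw [pd, fderiv_sl (hy.differentiableAt (by simp))]; rfl
    rw [pd, k.fderiv_eq, (h4 _).fderiv]; rfl
  have hQ : 0 < QQ (fderiv ℝ F (t, y)) := by
    rw [fderiv_sl hd] at hinj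
    have k := normDet_pos (L := (((fderiv ℝ F (t, y)).comp (ContinuousLinearMap.inr ℝ ℝ R2) :
      R2 →L[ℝ] R3) : R2 →ₗ[ℝ] R3)) hinj
    rwa [normDet_eq, Real.sqrt_pos] at k
  have e3 : ∀ w, ⟪V, nor (fun y => F (t, y)) y w⟫ = ⟪V, w⟫ := fun w => by
    rw [nor, P214.proj, ← Submodule.inner_starProjection_left_eq_right,
      Submodule.starProjection_eq_self_iff.2]
    rw [Submodule.mem_orthogonal']
    intro u hu
    induction hu using Submodule.span_induction with
    | mem x hx => obtain ⟨k, rfl⟩ := hx; simp only [e1]; exact hn.self_of_nhds _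
    | zero => exact inner_zero_right _
    | add x y _ _ hx hy => rw [inner_add_right, hx, hy, add_zero]
    | smul c x _ hx => rw [real_inner_smul_right, hx, mul_zero]
  have e4 : ‖V‖ ^ 2 = ⟪V, meanCurv (fun y => F (t, y)) y⟫ := by
    rw [← hH, real_inner_self_eq_norm_sq]
  simp only [meanCurv, inner_sum, real_inner_smul_right, e3, e1, e2] at e4
  rw [Matrix.inv_def, det_gram, Ring.inverse_eq_inv, Matrix.adjugate_fin_two] at e4
  simp only [Fin.sum_univ_two, Matrix.smul_apply, Matrix.gram_apply, Matrix.of_apply,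
    Matrix.cons_val', Matrix.cons_val_zero, Matrix.cons_val_one, Matrix.cons_val_fin_one,
    smul_eq_mul] at e4
  have h6 := ((((h3 (0, ev 0)).inner ℝ (h3 (0, ev 0))).mul
    ((h3 (0, ev 1)).inner ℝ (h3 (0, ev 1)))).sub
      (((h3 (0, ev 0)).inner ℝ (h3 (0, ev 1))).pow 2)).sqrt hQ.ne'
  refine h6.congr_deriv ?_
  have e5 : ∀ i j, ⟪fderiv ℝ F (t, y) (0, ev j), D (1, 0) (0, ev i)⟫
      = -⟪V, D (0, ev i) (0, ev j)⟫ := fun i j => by rw [real_inner_comm, h5]
  simp only [h5, e5, Pi.mul_apply, Pi.sub_apply, Pi.pow_apply]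
  rw [real_inner_comm (fderiv ℝ F (t, y) (0, ev 0)) (fderiv ℝ F (t, y) (0, ev 1))] at e4
  have hs := Real.sqrt_pos.2 hQ
  have e6 := Real.mul_self_sqrt hQ.le
  rw [← QQ, div_eq_iff (by positivity), e4]
  generalize √(QQ (fderiv ℝ F (t, y))) = q at hs e6 ⊢
  rw [← e6]
  field_simp
  push_cast
  ring

/-- differentiation under the integral -/
lemma param_int {Φ Ψ : ℝ × R2 → ℝ} {O : Set ℝ} {A C : Set R2} (hO : IsOpen O) (hC : IsCompact C)
    (hA : MeasurableSet A) (hAC : A ⊆ C) (h1 : ContinuousOn Φ (O ×ˢ C))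
    (h2 : ContinuousOn Ψ (O ×ˢ C))
    (h3 : ∀ t ∈ O, ∀ y ∈ C, HasDerivAt (fun s => Φ (s, y)) (Ψ (t, y)) t) (ht : t ∈ O) :
    HasDerivAt (fun s => ∫ y in A, Φ (s, y)) (∫ y in A, Ψ (t, y)) t ∧
      ContinuousAt (fun s => ∫ y in A, Ψ (s, y)) t := by
  obtain ⟨K, k1, k2, k3⟩ := local_compact_nhds (hO.mem_nhds ht)
  obtain ⟨B, hB⟩ := (k3.prod hC).exists_bound_of_continuousOn (h2.mono (prod_mono_left k2))
  have hi : ∀ {G : ℝ × R2 → ℝ}, ContinuousOn G (O ×ˢ C) → ∀ s ∈ O,
      IntegrableOn (fun y => G (s, y)) A := fun hG s hs =>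
    ((hG.comp (Continuous.prodMk_right s).continuousOn fun y hy =>
      mk_mem_prod hs hy).integrableOn_compact hC).mono_set hAC
  have hb : IntegrableOn (fun _ => B) A :=
    integrableOn_const ((measure_mono hAC).trans_lt hC.measure_lt_top).ne
  have hm := ae_restrict_mem (μ := volume) hA
  constructor
  · exact (hasDerivAt_integral_of_dominated_loc_of_deriv_le (F := fun s y => Φ (s, y))
      (F' := fun s y => Ψ (s, y)) k1 (Filter.mem_of_superset k1 fun s hs => (hi h1 s (k2 hs)).1)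
      (hi h1 t ht) (hi h2 t ht).1 (hm.mono fun y hy s hs => hB _ (mk_mem_prod hs (hAC hy))) hb
      (hm.mono fun y hy s hs => h3 s (k2 hs) y (hAC hy))).2
  · refine continuousAt_of_dominated (Filter.mem_of_superset k1 fun s hs => (hi h2 s (k2 hs)).1)
      (Filter.mem_of_superset k1 fun s hs => hm.mono fun y hy => hB _ (mk_mem_prod hs (hAC hy))) hb
      (hm.mono fun y hy => ?_)
    exact (h2.comp (Continuous.prodMk_left y).continuousOn fun s hs =>
      mk_mem_prod hs (hAC hy)).continuousAt (hO.mem_nhds ht)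

variable {S : Type} [TopologicalSpace S] [ChartedSpace R2 S] [IsManifold (𝓡 2) ∞ S]

variable (S) in
/-- a decomposition of the surface into pieces of charts -/
theorem exists_pieces [CompactSpace S] : ∃ (n : ℕ) (p : Fin n → S) (A C : Fin n → Set R2),
    (∀ k, MeasurableSet (A k)) ∧ (∀ k, IsCompact (C k)) ∧ (∀ k, A k ⊆ C k) ∧
    (∀ k, C k ⊆ (chartAt R2 (p k)).target) ∧
    Pairwise (Function.onFun Disjoint fun k => (chartAt R2 (p k)).symm '' A k) ∧
    ⋃ k, (chartAt R2 (p k)).symm '' A k = univ := by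
  have h1 : ∀ p : S, ∃ r, 0 < r ∧ closedBall (chartAt R2 p p) r ⊆ (chartAt R2 p).target := fun p =>
    nhds_basis_closedBall.mem_iff.1 ((chartAt R2 p).open_target.mem_nhds (mem_chart_target R2 p))
  choose r hr hr' using h1
  set U : S → Set S := fun p => (chartAt R2 p).source ∩ chartAt R2 p ⁻¹' ball (chartAt R2 p p) (r p)
  have hU : ∀ p, IsOpen (U p) := fun p => (chartAt R2 p).isOpen_inter_preimage isOpen_ball
  obtain ⟨s, hs⟩ := isCompact_univ.elim_finite_subcover U hU fun p _ =>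
    mem_iUnion.2 ⟨p, mem_chart_source R2 p, mem_ball_self (hr p)⟩
  set p : Fin s.card → S := fun k => s.equivFin.symm k
  set W : Fin s.card → Set S := disjointed fun k => U (p k) with hW
  have hWU : ∀ k, W k ⊆ U (p k) := disjointed_subset _
  have e : ∀ k, (chartAt R2 (p k)).symm '' (chartAt R2 (p k) '' W k) = W k := fun k =>
    (chartAt R2 (p k)).symm_image_image_of_subset_source fun q hq => (hWU k hq).1
  borelize S
  refine ⟨s.card, p, fun k => chartAt R2 (p k) '' W k, fun k => closedBall _ (r (p k)), fun k => ?_,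
    fun k => isCompact_closedBall _ _, fun k => ?_, fun k => hr' _, ?_, ?_⟩
  · have k1 : MeasurableSet (W k) := by
      rw [hW, disjointed_eq_inter_compl]
      exact (hU _).measurableSet.inter (MeasurableSet.iInter fun j => MeasurableSet.iInter fun _ =>
        (hU _).measurableSet.compl)
    beta_reduce
    rw [(chartAt R2 (p k)).image_eq_target_inter_inv_preimage fun q hq => (hWU k hq).1,
      ← Subtype.image_preimage_coe]
    exact (chartAt R2 (p k)).open_target.measurableSet.subtype_image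
      ((chartAt R2 (p k)).continuousOn_symm.domRestrict.measurable k1)
  · rintro _ ⟨q, hq, rfl⟩
    exact ball_subset_closedBall (hWU k hq).2
  · simp only [e]
    exact disjoint_disjointed _
  · simp only [e]
    rw [hW, iUnion_disjointed, eq_univ_iff_forall]
    intro q
    obtain ⟨q', h2, h3⟩ := mem_iUnion₂.1 (hs (mem_univ q))
    exact mem_iUnion.2 ⟨s.equivFin ⟨q', h2⟩, by simpa [p] using h3⟩

lemma inj_chart {Y : S → R3} (hY : IsEmb Y) (p : S) {y : R2} (hy : y ∈ (chartAt R2 p).target) :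
    Function.Injective (fderiv ℝ (Y ∘ (chartAt R2 p).symm) y) := by
  rw [← mfderiv_eq_fderiv, mfderiv_comp y (hY.smooth.mdifferentiableAt (by simp))
    ((mdifferentiable_chart (I := 𝓡 2) p).mdifferentiableAt_symm hy)]
  exact (hY.imm _).comp ((mdifferentiable_chart (I := 𝓡 2) p).symm.mfderiv_injective hy)

/-- the area formula for an embedded compact surface -/
theorem integral_pieces [CompactSpace S] {n : ℕ} {p : Fin n → S} {A : Fin n → Set R2}
    (h1 : ∀ k, MeasurableSet (A k)) (h2 : ∀ k, A k ⊆ (chartAt R2 (p k)).target)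
    (h3 : Pairwise (Function.onFun Disjoint fun k => (chartAt R2 (p k)).symm '' A k))
    (h4 : ⋃ k, (chartAt R2 (p k)).symm '' A k = univ) {Y : S → R3} (hY : IsEmb Y) {g : R3 → ℝ}
    (hg : ContinuousOn g (range Y)) :
    ∫ x, g x ∂(mu (range Y)) = ∑ k, ∫ y in A k, cH 2 * ((fderiv ℝ (Y ∘ (chartAt R2 (p k)).symm) y :
      R2 →L[ℝ] R3) : R2 →ₗ[ℝ] R3).normDet * g (Y ((chartAt R2 (p k)).symm y)) := by
  have c1 : ∀ k, ContDiffOn ℝ 1 (Y ∘ (chartAt R2 (p k)).symm) (chartAt R2 (p k)).target :=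
    fun k y hy => ((contDiffAt_chart hY.smooth (p k) hy).of_le
      (by exact_mod_cast le_top)).contDiffWithinAt
  have i1 : ∀ k, InjOn (Y ∘ (chartAt R2 (p k)).symm) (A k) := fun k =>
    hY.inj.comp_injOn ((chartAt R2 (p k)).symm.injOn.mono (h2 k))
  have e : range Y = ⋃ k, (Y ∘ (chartAt R2 (p k)).symm) '' A k := by
    simp only [image_comp]
    rw [← image_iUnion, h4, image_univ]
  have hi := hY.surf.integrableOn_compact finrank_E3 (isCompact_range hY.smooth.continuous)
    subset_rfl hg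
  rw [e] at hi
  rw [mu, e, integral_iUnion_fintype (fun k =>
    P218GA.measurableSet_image (c1 k).continuousOn (h1 k) (h2 k) (i1 k)) (fun j k hjk => by
      simp only [Function.onFun, image_comp]
      exact (disjoint_image_iff hY.inj).2 (h3 hjk)) fun k =>
        hi.mono_set (subset_iUnion (fun k => (Y ∘ (chartAt R2 (p k)).symm) '' A k) k)]
  exact Finset.sum_congr rfl fun k _ => (isJac_volume (U := R2) (V := R3) (m := 2)
    (by simp)).integral_image (chartAt R2 (p k)).open_target (c1 k)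
      (fun y hy => inj_chart hY (p k) hy) (h1 k) (h2 k) (i1 k) g

lemma brakke_eq {f : ℝ × E3 → ℝ} (hf : ContDiff ℝ 1 f) (H : E3 → E3) (t : ℝ) (x : E3) :
    brakkeIntegrand H f t x = -‖H x‖ ^ 2 * f (t, x) + fderiv ℝ f (t, x) (1, H x) := by
  have hd := (hf.differentiable one_ne_zero (t, x)).hasFDerivAt
  have e1 : fderiv ℝ (fun y => f (t, y)) x (H x) = fderiv ℝ f (t, x) (0, H x) := by
    rw [show fderiv ℝ (fun y => f (t, y)) x = _ from
      (hd.comp x (hasFDerivAt_prodMk_right t x)).fderiv]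
    rfl
  have e2 : deriv (fun s => f (s, x)) t = fderiv ℝ f (t, x) (1, 0) :=
    (hd.comp_hasDerivAt t ((hasDerivAt_id t).prodMk (hasDerivAt_const t x))).deriv
  rw [brakkeIntegrand, e1, e2, add_assoc, ← map_add]
  simp

namespace IsMCF

variable [CompactSpace S] [T2Space S] {X : ℝ → S → R3} {T : ℝ} {f : ℝ × E3 → ℝ}

lemma chart_at (h : IsMCF X T) (p : S) {z : ℝ × R2} (h1 : z.1 ∈ Ioo 0 T)
    (h2 : z.2 ∈ (chartAt R2 p).target) : ContDiffAt ℝ ∞ (chF X p) z :=
  (h.chart p).contDiffAt (prod_mem_nhds (Ico_mem_nhds h1.1 h1.2)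
    ((chartAt R2 p).open_target.mem_nhds h2))

lemma mc_chart {Y : S → R3} (hY : IsEmb Y) (p : S) {y : R2} (hy : y ∈ (chartAt R2 p).target) :
    meanCurv (Y ∘ (chartAt R2 p).symm) y = Hv (range Y) (Y ((chartAt R2 p).symm y)) :=
  meanCurv_eq_Hv hY.surf ((contDiffAt_chart hY.smooth p hy).of_le
    (WithTop.coe_le_coe.2 (le_top : (2 : ℕ∞) ≤ ⊤))) (inj_chart hY p hy)
    (Eventually.of_forall fun _ => mem_range_self _)

lemma time_deriv (h : IsMCF X T) (p : S) (ht : t ∈ Ioo 0 T) (hy : y ∈ (chartAt R2 p).target) :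
    HasDerivAt (fun s => chF X p (s, y)) (fderiv ℝ (chF X p) (t, y) (1, 0)) t :=
  HasFDerivAt.comp_hasDerivAt (f := fun s : ℝ => (s, y)) t
    ((h.chart_at p (z := (t, y)) ht hy).differentiableAt (by simp)).hasFDerivAt
    ((hasDerivAt_id t).prodMk (hasDerivAt_const t y))

lemma vel_eq (h : IsMCF X T) (h0 : Function.Injective (X 0)) (p : S) (ht : t ∈ Ioo 0 T)
    (hy : y ∈ (chartAt R2 p).target) :
    fderiv ℝ (chF X p) (t, y) (1, 0) = Hv (range (X t)) (chF X p (t, y)) := by
  have h1 := h.flow t ht ((chartAt R2 p).symm y)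
  rw [mc_chart (h.isEmb h0 ⟨ht.1.le, ht.2⟩) _ (mem_chart_target R2 _),
    (chartAt R2 _).left_inv (mem_chart_source R2 _)] at h1
  exact (h.time_deriv p ht hy).unique h1

lemma jac (h : IsMCF X T) (h0 : Function.Injective (X 0)) (p : S) (ht : t ∈ Ioo 0 T)
    (hy : y ∈ (chartAt R2 p).target) :
    HasDerivAt (fun s => √(QQ (fderiv ℝ (chF X p) (s, y))))
      (-‖fderiv ℝ (chF X p) (t, y) (1, 0)‖ ^ 2 * √(QQ (fderiv ℝ (chF X p) (t, y)))) t := by
  have hE := h.isEmb h0 ⟨ht.1.le, ht.2⟩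
  refine jac_deriv ((h.chart_at p (z := (t, y)) ht hy).of_le
    (WithTop.coe_le_coe.2 (le_top : (2 : ℕ∞) ≤ ⊤))) (inj_chart hE p hy) ?_ ?_
  · filter_upwards [(chartAt R2 p).open_target.mem_nhds hy] with y' hy' v
    have h1 := hE.surf.inner_nu_fderiv ((contDiffAt_chart hE.smooth p hy').differentiableAt
      (by simp)) (Eventually.of_forall fun _ => mem_range_self _) v
    have h2 := fderiv_sl ((h.chart_at p (z := (t, y')) ht hy').differentiableAt (by simp))
    rw [show fderiv ℝ (X t ∘ (chartAt R2 p).symm) y' = _ from h2] at h1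
    rw [h.vel_eq h0 p ht hy', Hv, real_inner_smul_left]
    exact mul_eq_zero_of_right _ h1
  · rw [h.vel_eq h0 p ht hy]
    exact (mc_chart hE p hy).symm

theorem deriv_II (h : IsMCF X T) (h0 : Function.Injective (X 0)) (hf : ContDiff ℝ 1 f)
    (ht : t ∈ Ioo 0 T) : HasDerivAt (II (fun s => range (X s)) f) (BB (fun s => range (X s)) f t) t
      ∧ ContinuousAt (BB (fun s => range (X s)) f) t := by
  obtain ⟨n, p, A, C, h1, h2, h3, h4, h5, h6⟩ := exists_pieces S
  set Φ : Fin n → ℝ × R2 → ℝ := fun k z =>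
    cH 2 * √(QQ (fderiv ℝ (chF X (p k)) z)) * f (z.1, chF X (p k) z) with hΦ
  set Ψ : Fin n → ℝ × R2 → ℝ := fun k z => cH 2 * √(QQ (fderiv ℝ (chF X (p k)) z)) *
    (-‖fderiv ℝ (chF X (p k)) z (1, 0)‖ ^ 2 * f (z.1, chF X (p k) z)
      + fderiv ℝ f (z.1, chF X (p k) z) (1, fderiv ℝ (chF X (p k)) z (1, 0))) with hΨ
  have hfc := hf.continuous
  have hfd := hf.continuous_fderiv one_ne_zero
  have key : ∀ s ∈ Ioo 0 T, ∀ g : R3 → ℝ, ContinuousOn g (range (X s)) →
      ∫ x, g x ∂(mu (range (X s))) = ∑ k, ∫ y in A k,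
        cH 2 * √(QQ (fderiv ℝ (chF X (p k)) (s, y))) * g (chF X (p k) (s, y)) := by
    intro s hs g hg
    rw [integral_pieces h1 (fun k => (h3 k).trans (h4 k)) h5 h6 (h.isEmb h0 ⟨hs.1.le, hs.2⟩) hg]
    refine Finset.sum_congr rfl fun k _ => setIntegral_congr_fun (h1 k) fun y hy => ?_
    have k1 := fderiv_sl ((h.chart_at (p k) (z := (s, y)) hs (h4 k (h3 k hy))).differentiableAt
      (by simp))
    rw [show fderiv ℝ (X s ∘ (chartAt R2 (p k)).symm) y = _ from k1, normDet_eq]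
    rfl
  have e1 : II (fun s => range (X s)) f =ᶠ[𝓝 t] fun s => ∑ k, ∫ y in A k, Φ k (s, y) := by
    filter_upwards [isOpen_Ioo.mem_nhds ht] with s hs
    exact key s hs _ (by fun_prop)
  have e2 : BB (fun s => range (X s)) f =ᶠ[𝓝 t] fun s => ∑ k, ∫ y in A k, Ψ k (s, y) := by
    filter_upwards [isOpen_Ioo.mem_nhds ht] with s hs
    have k1 := (h.isEmb h0 ⟨hs.1.le, hs.2⟩).surf.continuousOn_Hv
    simp only [BB, brakke_eq hf]
    rw [key s hs _ (by fun_prop)]
    refine Finset.sum_congr rfl fun k _ => setIntegral_congr_fun (h1 k) fun y hy => ?_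
    simp only [hΨ, h.vel_eq h0 (p k) hs (h4 k (h3 k hy))]
  have main : ∀ k, HasDerivAt (fun s => ∫ y in A k, Φ k (s, y)) (∫ y in A k, Ψ k (t, y)) t ∧
      ContinuousAt (fun s => ∫ y in A k, Ψ k (s, y)) t := by
    intro k
    have c1 : ContinuousOn (chF X (p k)) (Ioo 0 T ×ˢ C k) := fun z hz =>
      (h.chart_at (p k) hz.1 (h4 k hz.2)).continuousAt.continuousWithinAt
    have c2 : ContinuousOn (fderiv ℝ (chF X (p k))) (Ioo 0 T ×ˢ C k) := fun z hz =>
      ((h.chart_at (p k) hz.1 (h4 k hz.2)).fderiv_right (m := 0)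
        (by simp)).continuousAt.continuousWithinAt
    have c3 : Continuous QQ := by unfold QQ; fun_prop
    refine param_int isOpen_Ioo (h2 k) (h1 k) (h3 k) (by simp only [hΦ]; fun_prop)
      (by simp only [hΨ]; fun_prop) (fun s hs y hy => ?_) ht
    have k1 := (hf.differentiable one_ne_zero (s, chF X (p k) (s, y))).hasFDerivAt
    have k2 := HasFDerivAt.comp_hasDerivAt (f := fun r : ℝ => (r, chF X (p k) (r, y))) s k1
      ((hasDerivAt_id s).prodMk (h.time_deriv (p k) hs (h4 k hy)))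
    refine (((h.jac h0 (p k) hs (h4 k hy)).const_mul (cH 2 : ℝ)).mul k2).congr_deriv ?_
    simp only [hΨ, Function.comp_apply]
    ring
  rw [e2.self_of_nhds]
  exact ⟨(HasDerivAt.fun_sum fun k _ => (main k).1).congr_of_eventuallyEq e1,
    (continuousAt_congr e2).2 (tendsto_finsetSum _ fun k _ => (main k).2)⟩

/-- **A smooth flow is a Brakke flow**, after a shift of time and extension by zero -/
theorem exists_brakke (h : IsMCF X T) (h0 : Function.Injective (X 0)) {t₁ : ℝ}
    (h1 : t₁ ∈ Ioo 0 T) : ∃ ν : ℝ → Measure E3, IsIntegralBrakkeFlow 2 ν ∧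
      ∀ s ∈ Ico 0 (T - t₁), ν s = mu (range (X (s + t₁))) := by
  classical
  set M : ℝ → Set E3 := fun s => if s + t₁ ∈ Ioo 0 T then range (X (s + t₁)) else ∅ with hM
  have hI : ∀ s ∈ Ico 0 (T - t₁), s + t₁ ∈ Ioo 0 T := fun s hs =>
    ⟨by linarith [hs.1, h1.1], by linarith [hs.2]⟩
  have hev : ∀ s ∈ Ico 0 (T - t₁), ∀ᶠ r in 𝓝 s, M r = range (X (r + t₁)) := fun s hs => by
    filter_upwards [(continuous_add_const t₁).continuousAt.eventually
      (isOpen_Ioo.mem_nhds (hI s hs))] with r hr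
    exact if_pos hr
  have key : ∀ f : ℝ × E3 → ℝ, ContDiff ℝ 1 f → ∀ s ∈ Ico 0 (T - t₁),
      HasDerivAt (II M f) (BB M f s) s ∧ ContinuousAt (BB M f) s := by
    intro f hf s hs
    obtain ⟨k1, k2⟩ := h.deriv_II (f := fun z => f (z.1 - t₁, z.2)) h0 (by fun_prop) (hI s hs)
    have e1 : II M f =ᶠ[𝓝 s] fun r =>
        II (fun s => range (X s)) (fun z => f (z.1 - t₁, z.2)) (r + t₁) := by
      filter_upwards [hev s hs] with r hr
      simp only [II, hr, add_sub_cancel_right]
    have e2 : BB M f =ᶠ[𝓝 s] fun r =>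
        BB (fun s => range (X s)) (fun z => f (z.1 - t₁, z.2)) (r + t₁) := by
      filter_upwards [hev s hs] with r hr
      have e : ∀ x, deriv (fun s => f (s - t₁, x)) (r + t₁) = deriv (fun s => f (s, x)) r :=
        fun x => by rw [deriv_comp_sub_const (fun s => f (s, x)), add_sub_cancel_right]
      simp only [BB, hr, brakkeIntegrand, add_sub_cancel_right, e]
    rw [e2.self_of_nhds]
    exact ⟨(k1.comp_add_const s t₁).congr_of_eventuallyEq e1, (continuousAt_congr e2).2
      (k2.comp (f := fun r => r + t₁) (continuous_add_const t₁).continuousAt)⟩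
  have hS : SmFlow M (T - t₁) := by
    refine ⟨sub_pos.2 h1.2, fun s => ?_, fun s => ?_, fun s hs => if_neg fun k => ?_,
      fun f hf s hs => (key f hf s hs).1, fun f hf s hs => (key f hf s hs).2.continuousWithinAt⟩
    · simp only [hM]
      split_ifs with k
      · exact (h.isEmb h0 ⟨k.1.le, k.2⟩).surf
      · exact fun _ hp => hp.elim
    · simp only [hM]
      split_ifs with k
      · exact isCompact_range (h.slice ⟨k.1.le, k.2⟩).continuous
      · exact isCompact_empty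
    · linarith [k.2]
  exact ⟨_, hS.brakke, fun s hs => by rw [(hev s hs).self_of_nhds]⟩

end IsMCF

end Vale.Agent.P218N.Top
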