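import Vale.Agent.P218N.Top.Defs
import Vale.Agent.P218N.H.Param

/-! The mean curvature vector of a parametrised surface. -/

open MeasureTheory Set Filter Topology Metric
open scoped NNReal RealInnerProductSpace ContDiff Matrix

namespace Vale.Agent.P218N.Top

open Vale.Agent.P218.H313 Vale.Agent.P218N.H

set_option linter.unusedSectionVars false
set_option linter.unusedVariables false

/-- the coordinate vectors -/
noncomputable abbrev ev (i : Fin 2) : R2 := EuclideanSpace.single i 1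

lemma eq_sum_ev (u : R2) : u = ∑ i, u i • ev i := by
  ext j
  fin_cases j <;> simp

lemma inner_ev (k l : Fin 2) : ⟪ev k, ev l⟫ = if k = l then 1 else 0 :=
  orthonormal_iff_ite.1 EuclideanSpace.orthonormal_single k l

lemma gram_inv_sum {F : Type*} [NormedAddCommGroup F] [NormedSpace ℝ F] {L : R2 →L[ℝ] R3}
    {u : Fin 2 → R2} (hu : ∀ k l, ⟪L (u k), L (u l)⟫ = if k = l then 1 else 0)
    (B : R2 →L[ℝ] R2 →L[ℝ] F) :
    ∑ i, ∑ j, (Matrix.gram ℝ fun k => L (ev k))⁻¹ i j • B (ev i) (ev j) = ∑ k, B (u k) (u k) := by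
  set G := Matrix.gram ℝ fun k => L (ev k) with hG
  set U : Matrix (Fin 2) (Fin 2) ℝ := Matrix.of fun i k => u k i with hU
  have h1 : Uᵀ * G * U = 1 := by
    ext k l
    rw [Matrix.one_apply, ← hu]
    conv_rhs => rw [eq_sum_ev (u k), eq_sum_ev (u l)]
    simp only [Matrix.mul_apply, Fin.sum_univ_two, hU, hG, Matrix.transpose_apply, Matrix.of_apply,
      Matrix.gram_apply, map_add, map_smul, inner_add_left, inner_add_right, real_inner_smul_left,
      real_inner_smul_right]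
    ring
  have h2 : G⁻¹ = U * Uᵀ := Matrix.inv_eq_left_inv (by
    rw [Matrix.mul_assoc]; exact mul_eq_one_comm.1 h1)
  rw [h2]
  conv_rhs => enter [2, k]; rw [eq_sum_ev (u k)]
  simp only [Matrix.mul_apply, Fin.sum_univ_two, hU, Matrix.transpose_apply, Matrix.of_apply,
    map_add, map_smul, add_apply, smul_apply]
  module

variable {φ : R2 → R3} {a : R2} {L : R2 →L[ℝ] R3} {f : Frame 2 E3}

lemma exists_pre (hL : Function.Injective L) (hn : ∀ v, ⟪f.n, L v⟫ = 0) (z : R2) :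
    ∃ u, L u = f.ι z := by
  have h1 : ∀ v, f.ι (f.π (L v)) = L v := fun v => by rw [f.ι_π, hn, zero_smul, sub_zero]
  have h2 : Function.Injective ((f.π.comp L : R2 →L[ℝ] R2) : R2 →ₗ[ℝ] R2) := fun v v' h =>
    hL (by rw [← h1 v, ← h1 v']; exact congrArg f.ι h)
  obtain ⟨u, hu⟩ := LinearMap.injective_iff_surjective.1 h2 z
  exact ⟨u, by rw [← h1 u]; exact congrArg f.ι hu⟩

lemma exists_pre' (hL : Function.Injective L) (hn : ∀ v, ⟪f.n, L v⟫ = 0) :
    ∃ u : Fin 2 → R2, ∀ k, L (u k) = f.ι (ev k) :=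
  ⟨fun k => (exists_pre hL hn (ev k)).choose, fun k => (exists_pre hL hn (ev k)).choose_spec⟩

lemma fderiv_mem_span (v : R2) :
    fderiv ℝ φ a v ∈ Submodule.span ℝ (range fun k => pd φ k a) := by
  rw [eq_sum_ev v, map_sum]
  refine Submodule.sum_mem _ fun i _ => ?_
  rw [map_smul]
  exact Submodule.smul_mem _ _ (Submodule.subset_span ⟨i, rfl⟩)

lemma nor_eq (hL : Function.Injective (fderiv ℝ φ a)) (hn : ∀ v, ⟪f.n, fderiv ℝ φ a v⟫ = 0)
    (v : R3) : nor φ a v = ⟪f.n, v⟫ • f.n := by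
  unfold nor P214.proj
  refine Submodule.eq_starProjection_of_mem_of_inner_eq_zero (Submodule.smul_mem _ _ ?_) ?_
  · rw [Submodule.mem_orthogonal']
    intro w hw
    induction hw using Submodule.span_induction with
    | mem x hx => obtain ⟨k, rfl⟩ := hx; exact hn _
    | zero => exact inner_zero_right _
    | add x y _ _ hx hy => rw [inner_add_right, hx, hy, add_zero]
    | smul c x _ hx => rw [real_inner_smul_right, hx, mul_zero]
  · intro w hw
    obtain ⟨u, hu⟩ := exists_pre hL hn (f.π v)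
    rw [← f.ι_π, ← hu]
    exact Submodule.inner_right_of_mem_orthogonal (fderiv_mem_span u) hw

lemma pd_pd (hφ : ContDiffAt ℝ 2 φ a) (i j : Fin 2) :
    pd (pd φ j) i a = fderiv ℝ (fderiv ℝ φ) a (ev i) (ev j) := by
  have h4 : HasFDerivAt (fderiv ℝ φ) (fderiv ℝ (fderiv ℝ φ) a) a :=
    ((hφ.fderiv_right (m := 1) (by norm_num)).differentiableAt (by simp)).hasFDerivAt
  have h5 := (h4.clm_apply (hasFDerivAt_const (ev j) a)).fderiv
  have e : pd φ j = fun y => fderiv ℝ φ y (ev j) := rfl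
  rw [pd, e, h5]
  simp

/-- the mean curvature vector in terms of an orthonormal frame -/
lemma meanCurv_eq (hφ : ContDiffAt ℝ 2 φ a) (hL : Function.Injective (fderiv ℝ φ a))
    (hn : ∀ v, ⟪f.n, fderiv ℝ φ a v⟫ = 0) {u : Fin 2 → R2}
    (hu : ∀ k, fderiv ℝ φ a (u k) = f.ι (ev k)) :
    meanCurv φ a = (∑ k, ⟪f.n, fderiv ℝ (fderiv ℝ φ) a (u k) (u k)⟫) • f.n := by
  have h1 := gram_inv_sum (L := fderiv ℝ φ a) (u := u)
    (fun k l => by rw [hu, hu, f.inner_ι, inner_ev]) (fderiv ℝ (fderiv ℝ φ) a)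
  rw [← inner_sum, ← h1]
  simp only [meanCurv, nor_eq hL hn, pd_pd hφ, inner_sum, real_inner_smul_right, Finset.sum_smul,
    smul_smul]
  rfl

lemma sum_inner_ι (A : E3 →L[ℝ] E3) :
    ∑ k, ⟪A (f.ι (ev k)), f.ι (ev k)⟫ = tr A - ⟪f.n, A f.n⟫ := by
  rw [← f.tr_eq, tr, LinearMap.trace_eq_sum_inner _ (EuclideanSpace.basisFun (Fin 2) ℝ)]
  refine Finset.sum_congr rfl fun k _ => ?_
  rw [real_inner_comm, f.adj]
  simp

variable {M : Set E3}

theorem meanCurv_eq_Hv (hM : Surf M) (hφ : ContDiffAt ℝ 2 φ a)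
    (hL : Function.Injective (fderiv ℝ φ a)) (h1 : ∀ᶠ y in 𝓝 a, φ y ∈ M) :
    meanCurv φ a = Hv M (φ a) := by
  have hx := h1.self_of_nhds
  obtain ⟨f, hf⟩ := exists_frame (m := 2) (by simp) (hM.norm_nu hx)
  have hn : ∀ v, ⟪f.n, fderiv ℝ φ a v⟫ = 0 := fun v => by
    rw [hf]; exact hM.inner_nu_fderiv (hφ.differentiableAt (by simp)) h1 v
  obtain ⟨u, hu⟩ := exists_pre' hL hn
  rw [meanCurv_eq hφ hL hn hu, Hv, hf]
  congr 1
  simp only [hM.inner_nu_snd hφ h1, hu, Finset.sum_neg_distrib]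
  rw [sum_inner_ι, hf, hM.sff_nu hx, inner_zero_right, sub_zero]

theorem nor_eq_sub (hM : Surf M) (hφ : DifferentiableAt ℝ φ a)
    (hL : Function.Injective (fderiv ℝ φ a)) (h1 : ∀ᶠ y in 𝓝 a, φ y ∈ M) (v : R3) :
    nor φ a v = v - PT M (φ a) v := by
  obtain ⟨f, hf⟩ := exists_frame (m := 2) (by simp) (hM.norm_nu h1.self_of_nhds)
  rw [nor_eq (f := f) hL fun v => by rw [hf]; exact hM.inner_nu_fderiv hφ h1 v, hf, PT_apply,
    sub_sub_cancel]

end Vale.Agent.P218N.Top
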