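import Vale.Agent.P218.Defs

/-! Smooth mean curvature flows of surfaces in `ℝ³`, self-shrinkers, genus. -/

open MeasureTheory Set Filter Topology
open scoped Manifold ContDiff

namespace Vale.Agent.P218N.Top

open Vale.Agent.P214 (proj IsSmoothSubmanifold)
open Vale.Agent.P218 (IsTangentFlow TangentFlowUnique WeakTendsto rescaled)

/-- the plane -/
abbrev R2 := EuclideanSpace ℝ (Fin 2)

/-- the space -/
abbrev R3 := EuclideanSpace ℝ (Fin 3)

/-- the area measure `H² ⌞ M` -/
noncomputable def area (M : Set R3) : Measure R3 := (μH[2] : Measure R3).restrict M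

/-- the coordinate derivative `∂_i φ` -/
noncomputable def pd (φ : R2 → R3) (i : Fin 2) (a : R2) : R3 :=
  fderiv ℝ φ a (EuclideanSpace.single i 1)

/-- the part of the vector `v` which is normal to the parametrised surface `φ` at `φ a` -/
noncomputable def nor (φ : R2 → R3) (a : R2) (v : R3) : R3 :=
  proj (Submodule.span ℝ (range fun k => pd φ k a))ᗮ v

/-- the mean curvature vector `g^{ij} (∂_i ∂_j φ)^⊥` of the parametrised surface `φ` at `φ a`, where
`g_{ij} = ⟨∂_i φ, ∂_j φ⟩` -/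
noncomputable def meanCurv (φ : R2 → R3) (a : R2) : R3 :=
  ∑ i, ∑ j, (Matrix.gram ℝ fun k => pd φ k a)⁻¹ i j • nor φ a (pd (pd φ j) i a)

section

variable (P : Type) [NormedAddCommGroup P] [NormedSpace ℝ P] {E : Type} [NormedAddCommGroup E]
  [NormedSpace ℝ E] {S : Type} [TopologicalSpace S] [ChartedSpace P S]

/-- `(t, p) ↦ X t p` is smooth on `[0, T) × S`, for a manifold `S` with charts in `P` -/
def SmoothFamily (X : ℝ → S → E) (T : ℝ) : Prop :=
  ContMDiffOn (𝓘(ℝ, ℝ).prod 𝓘(ℝ, P)) 𝓘(ℝ, E) ∞ (fun q : ℝ × S => X q.1 q.2) (Ico 0 T ×ˢ univ)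

/-- the differential of `f` is injective at every point -/
def Immersive (f : S → E) : Prop := ∀ p, Function.Injective (mfderiv 𝓘(ℝ, P) 𝓘(ℝ, E) f p)

end

/-- `X` is a smooth mean curvature flow on `[0, T)`: a smooth family of immersions `X t` of the
surface `S` into `ℝ³` with `∂_t X = H`, the mean curvature vector being computed in charts. -/
structure IsMCF {S : Type} [TopologicalSpace S] [ChartedSpace R2 S] (X : ℝ → S → R3) (T : ℝ) :
    Prop where
  smooth : SmoothFamily R2 X T
  immersion : ∀ t ∈ Ico 0 T, Immersive R2 (X t)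
  flow : ∀ t ∈ Ioo 0 T, ∀ p,
    HasDerivAt (fun s => X s p) (meanCurv (X t ∘ (chartAt R2 p).symm) (chartAt R2 p p)) t

/-- `M` is a smooth properly embedded surface without boundary. -/
def IsSurface (M : Set R3) : Prop := IsClosed M ∧ IsSmoothSubmanifold 2 M

/-- `M` is a smooth properly embedded self-shrinker: `H + x^⊥ / 2 = 0` in every local
parametrisation. -/
def IsShrinker (M : Set R3) : Prop := IsSurface M ∧
  ∀ (φ : R2 → R3) (a : R2), ContDiff ℝ ∞ φ → Function.Injective (fderiv ℝ φ a) →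
    (∀ᶠ y in 𝓝 a, φ y ∈ M) → meanCurv φ a + (1 / 2 : ℝ) • nor φ a (φ a) = 0

/-- The surface `M` has genus at most `g` (summed over its components): the image of
`H¹_c(M; ℤ)` in `H¹(M; ℤ) = [M, ℝ/ℤ]` has rank at most `2 g`. That is, any `2 g + 1` compactly
supported maps `M → ℝ/ℤ` have a nontrivial integer combination which lifts to `ℝ`. -/
def GenusLE (M : Set R3) (g : ℕ) : Prop :=
  ∀ u : Fin (2 * g + 1) → C(M, UnitAddCircle), (∀ i, HasCompactSupport (u i)) →
    ∃ m : Fin (2 * g + 1) → ℤ, m ≠ 0 ∧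
      ∃ w : C(M, ℝ), ∀ x, (w x : UnitAddCircle) = ∑ i, m i • u i x

/-- The tangent flow at `(x₀, t₀)` is unique, it exists, and the rescaled flows converge to it
along every sequence `λ_i → ∞`. -/
def UniqueTangentFlow (μ : ℝ → Measure R3) (x₀ : R3) (t₀ : ℝ) : Prop :=
  TangentFlowUnique 2 μ x₀ t₀ ∧ ∃ ν : ℝ → Measure R3, IsTangentFlow 2 μ x₀ t₀ ν ∧
    ∀ lam : ℕ → ℝ, Tendsto lam atTop atTop →
      ∀ s < 0, WeakTendsto (fun i => rescaled 2 μ x₀ t₀ (lam i) s) (ν s)

end Vale.Agent.P218N.Top
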