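import Vale.Agent.P218N.Top.Curv
import Vale.Agent.P218N.H.Bridge
import Vale.Agent.P218N.C.TwoPt

/-! Embeddedness is preserved by the mean curvature flow. -/

open MeasureTheory Set Filter Topology Metric
open scoped NNReal RealInnerProductSpace ContDiff Manifold

namespace Vale.Agent.P218N.Top

open Vale.Agent.P218.H313 Vale.Agent.P218N.H

set_option linter.unusedSectionVars false
set_option linter.unusedVariables false

variable {φ ψ : R2 → R3} {a b : R2}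

lemma line_deriv (hφ : ContDiffAt ℝ 2 φ a) (u : R2) :
    (∀ᶠ s in 𝓝 (0 : ℝ), HasDerivAt (fun s : ℝ => φ (a + s • u)) (fderiv ℝ φ (a + s • u) u) s) ∧
      HasDerivAt (fun s : ℝ => fderiv ℝ φ (a + s • u) u) (fderiv ℝ (fderiv ℝ φ) a u u) 0 := by
  have hl : ∀ s : ℝ, HasDerivAt (fun s : ℝ => a + s • u) u s := fun s => by
    simpa using ((hasDerivAt_id s).smul_const u).const_add a
  have h0 : Tendsto (fun s : ℝ => a + s • u) (𝓝 0) (𝓝 a) := by
    simpa using (hl 0).continuousAt.tendsto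
  constructor
  · filter_upwards [h0.eventually (hφ.eventually (by simp))] with s hs
    exact (hs.differentiableAt (by simp)).hasFDerivAt.comp_hasDerivAt s (hl s)
  · have h4 : HasFDerivAt (fderiv ℝ φ) (fderiv ℝ (fderiv ℝ φ) a) (a + (0 : ℝ) • u) := by
      simpa using
        ((hφ.fderiv_right (m := 1) (by norm_num)).differentiableAt (by simp)).hasFDerivAt
    have h5 : HasDerivAt (fun s : ℝ => fderiv ℝ φ (a + s • u)) (fderiv ℝ (fderiv ℝ φ) a u) 0 :=
      HasFDerivAt.comp_hasDerivAt (f := fun s : ℝ => a + s • u) (0 : ℝ) h4 (hl 0)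
    simpa using h5.clm_apply (hasDerivAt_const (0 : ℝ) u)

lemma two_line (hφ : ContDiffAt ℝ 2 φ a) (hψ : ContDiffAt ℝ 2 ψ b)
    (hm : IsLocalMin (fun z : R2 × R2 => ‖φ z.1 - ψ z.2‖ ^ 2) (a, b)) (u v : R2) :
    ⟪φ a - ψ b, fderiv ℝ φ a u - fderiv ℝ ψ b v⟫ = 0 ∧ 0 ≤ ‖fderiv ℝ φ a u - fderiv ℝ ψ b v‖ ^ 2
      + ⟪φ a - ψ b, fderiv ℝ (fderiv ℝ φ) a u u - fderiv ℝ (fderiv ℝ ψ) b v v⟫ := by
  obtain ⟨h1, h2⟩ := line_deriv hφ u
  obtain ⟨h3, h4⟩ := line_deriv hψ v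
  have h5 : IsLocalMin (fun s : ℝ => ‖φ (a + s • u) - ψ (b + s • v)‖ ^ 2) 0 := by
    have k1 : ContinuousAt (fun s : ℝ => (a + s • u, b + s • v)) 0 := by fun_prop
    have k2 : IsLocalMin (fun z : R2 × R2 => ‖φ z.1 - ψ z.2‖ ^ 2)
      ((fun s : ℝ => (a + s • u, b + s • v)) 0) := by simpa using hm
    exact IsLocalMin.comp_continuous (g := fun s : ℝ => (a + s • u, b + s • v)) k2 k1
  have h6 := (((h1.self_of_nhds.sub h3.self_of_nhds).inner ℝ (h2.sub h4))).const_mul 2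
  obtain ⟨k1, k2⟩ := C.sec_nonneg (φ' := fun s => 2 * ⟪φ (a + s • u) - ψ (b + s • v),
    fderiv ℝ φ (a + s • u) u - fderiv ℝ ψ (b + s • v) v⟫)
    ((h1.and h3).mono fun s hs => (hs.1.sub hs.2).norm_sq) h6 h5
  simp only [zero_smul, add_zero, Pi.sub_apply, real_inner_self_eq_norm_sq] at k1 k2
  constructor <;> linarith

/-- **the two-point maximum principle** -/
theorem two_point (hφ : ContDiffAt ℝ 2 φ a) (hψ : ContDiffAt ℝ 2 ψ b)
    (h1 : Function.Injective (fderiv ℝ φ a)) (h2 : Function.Injective (fderiv ℝ ψ b))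
    (hm : IsLocalMin (fun z : R2 × R2 => ‖φ z.1 - ψ z.2‖ ^ 2) (a, b)) :
    0 ≤ ⟪φ a - ψ b, meanCurv φ a - meanCurv ψ b⟫ := by
  by_cases hw : φ a - ψ b = 0
  · rw [hw, inner_zero_left]
  obtain ⟨f, hf⟩ := exists_frame (m := 2) (by simp) (norm_smul_inv_norm (𝕜 := ℝ) hw)
  have hw' : φ a - ψ b = ‖φ a - ψ b‖ • f.n := by
    rw [hf, RCLike.ofReal_real_eq_id, id, smul_smul, mul_inv_cancel₀ (norm_ne_zero_iff.2 hw),
      one_smul]
  have hpos := norm_pos_iff.2 hw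
  have key := two_line hφ hψ hm
  generalize ‖φ a - ψ b‖ = d at hw' hpos
  rw [hw'] at key ⊢
  simp only [real_inner_smul_left] at key ⊢
  have n1 : ∀ u, ⟪f.n, fderiv ℝ φ a u⟫ = 0 := fun u => by
    simpa [hpos.ne'] using (key u 0).1
  have n2 : ∀ v, ⟪f.n, fderiv ℝ ψ b v⟫ = 0 := fun v => by
    simpa [hpos.ne'] using (key 0 v).1
  obtain ⟨u, hu⟩ := exists_pre' h1 n1
  obtain ⟨v, hv⟩ := exists_pre' h2 n2
  rw [meanCurv_eq hφ h1 n1 hu, meanCurv_eq hψ h2 n2 hv, ← sub_smul, real_inner_smul_right,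
    f.inner_nn, mul_one, ← Finset.sum_sub_distrib, Finset.mul_sum]
  refine Finset.sum_nonneg fun k _ => ?_
  have h3 := (key (u k) (v k)).2
  rwa [hu, hv, sub_self, norm_zero, zero_pow two_ne_zero, zero_add, inner_sub_right] at h3

variable {S : Type} [TopologicalSpace S] [ChartedSpace R2 S] [IsManifold (𝓡 2) ∞ S]
  {X : ℝ → S → R3} {T t : ℝ}

/-- the flow in the chart at `p` -/
noncomputable def chF (X : ℝ → S → R3) (p : S) (z : ℝ × R2) : R3 := X z.1 ((chartAt R2 p).symm z.2)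

namespace IsMCF

lemma slice (h : IsMCF X T) (ht : t ∈ Ico 0 T) : ContMDiff (𝓡 2) (𝓡 3) ∞ (X t) :=
  h.smooth.comp_contMDiff (f := fun p : S => (t, p)) (contMDiff_const.prodMk contMDiff_id)
    fun p => ⟨ht, trivial⟩

lemma chart (h : IsMCF X T) (p : S) :
    ContDiffOn ℝ ∞ (chF X p) (Ico 0 T ×ˢ (chartAt R2 p).target) := by
  have h1 : ContMDiffOn 𝓘(ℝ, ℝ × R2) (𝓘(ℝ, ℝ).prod (𝓡 2)) ∞
      (fun z : ℝ × R2 => (z.1, (chartAt R2 p).symm z.2)) (Ico 0 T ×ˢ (chartAt R2 p).target) :=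
    contDiff_fst.contMDiff.contMDiffOn.prodMk ((contMDiffOn_chart_symm (I := 𝓡 2) (n := ∞)).comp
      contDiff_snd.contMDiff.contMDiffOn fun z hz => hz.2)
  exact (h.smooth.comp h1 fun z hz => ⟨hz.1, trivial⟩).contDiffOn

lemma cont_fderiv (h : IsMCF X T) (p : S) :
    ContinuousOn (fun z : ℝ × R2 => fderiv ℝ (X z.1 ∘ (chartAt R2 p).symm) z.2)
      (Ico 0 T ×ˢ (chartAt R2 p).target) := by
  have hu : UniqueDiffOn ℝ (Ico 0 T ×ˢ (chartAt R2 p).target) :=
    (uniqueDiffOn_Ico 0 T).prod (chartAt R2 p).open_target.uniqueDiffOn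
  refine (((h.chart p).continuousOn_fderivWithin hu (by exact_mod_cast le_top)).clm_comp
    (continuousOn_const (c := ContinuousLinearMap.inr ℝ ℝ R2))).congr fun z hz => ?_
  have h1 := ((h.chart p).differentiableOn (by simp) z hz).hasFDerivWithinAt
  have h2 : HasFDerivWithinAt (fun y : R2 => (z.1, y)) (ContinuousLinearMap.inr ℝ ℝ R2)
    (chartAt R2 p).target z.2 := (hasFDerivAt_prodMk_right z.1 z.2).hasFDerivWithinAt
  exact ((h1.comp z.2 h2 fun y hy => mk_mem_prod hz.1 hy).hasFDerivAt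
    ((chartAt R2 p).open_target.mem_nhds hz.2)).fderiv

lemma loc_inj (h : IsMCF X T) (ht : t ∈ Ico 0 T) (p : S) :
    ∃ I ∈ 𝓝[Ico 0 T] t, ∃ V ∈ 𝓝 p, ∀ s ∈ I, InjOn (X s) V := by
  set e := chartAt R2 p
  have hp : p ∈ e.source := mem_chart_source R2 p
  have ha := e.map_source hp
  set L := fderiv ℝ (X t ∘ e.symm) (e p) with hL
  have hi : Function.Injective L := by
    rw [hL, fderiv_chart (h.slice ht)]; exact h.immersion t ht p
  obtain ⟨K, hK, hK'⟩ := (L : R2 →ₗ[ℝ] R3).exists_antilipschitzWith (LinearMap.ker_eq_bot.2 hi)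
  have hK0 : (0 : ℝ) < K := hK
  have h1 := h.cont_fderiv p (t, e p) ⟨ht, ha⟩
  rw [ContinuousWithinAt, nhdsWithin_prod_eq, e.open_target.nhdsWithin_eq ha] at h1
  obtain ⟨I, hI, O, hO, h2⟩ := mem_prod_iff.1 (h1 (ball_mem_nhds L (ε := 1 / (2 * K))
    (by positivity)))
  obtain ⟨r, hr, h3⟩ := Metric.mem_nhds_iff.1 (inter_mem hO (e.open_target.mem_nhds ha))
  refine ⟨I ∩ Ico 0 T, inter_mem hI self_mem_nhdsWithin, e.source ∩ e ⁻¹' ball (e p) r,
    inter_mem (e.open_source.mem_nhds hp) ((e.continuousAt hp) (ball_mem_nhds _ hr)),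
    fun s hs q hq q' hq' hqq => e.injOn hq.1 hq'.1 ?_⟩
  have h4 := (convex_ball (e p) r).norm_image_sub_le_of_norm_fderiv_le' (𝕜 := ℝ)
    (f := X s ∘ e.symm) (φ := L) (C := 1 / (2 * K))
    (fun y hy => (contDiffAt_chart (h.slice hs.2) p (h3 hy).2).differentiableAt (by simp))
    (fun y hy => by
      have := h2 (mk_mem_prod hs.1 (h3 hy).1)
      rw [mem_preimage, mem_ball, dist_eq_norm] at this
      exact this.le) hq'.2 hq.2
  simp only [Function.comp, e.left_inv hq.1, e.left_inv hq'.1, hqq, sub_self, zero_sub,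
    norm_neg] at h4
  have h5 := hK'.le_mul_dist (e q - e q') 0
  rw [map_zero, dist_zero_right, dist_zero_right] at h5
  have h6 : (K : ℝ) * ‖L (e q - e q')‖ ≤ 1 / 2 * ‖e q - e q'‖ :=
    (mul_le_mul_of_nonneg_left h4 hK0.le).trans_eq (by field_simp)
  have h7 : ‖e q - e q'‖ ≤ K * ‖L (e q - e q')‖ := h5
  rw [← sub_eq_zero, ← norm_le_zero_iff]
  linarith

lemma unif_inj (h : IsMCF X T) (ht : t < T) (p : S) :
    ∃ V ∈ 𝓝 p, ∀ s ∈ Icc 0 t, InjOn (X s) V := by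
  have hs : Icc 0 t ⊆ Ico 0 T := Icc_subset_Ico_right ht
  refine isCompact_Icc.induction_on (p := fun I => ∃ V ∈ 𝓝 p, ∀ s ∈ I, InjOn (X s) V)
    ⟨univ, univ_mem, by simp⟩ ?_ ?_ fun s h1 => ?_
  · rintro I J hIJ ⟨V, h1, h2⟩
    exact ⟨V, h1, fun s hs => h2 s (hIJ hs)⟩
  · rintro I J ⟨V, h1, h2⟩ ⟨V', h3, h4⟩
    refine ⟨V ∩ V', inter_mem h1 h3, fun s hs => hs.elim (fun k => (h2 s k).mono inter_subset_left)
      fun k => (h4 s k).mono inter_subset_right⟩
  · obtain ⟨I, h2, h3⟩ := h.loc_inj (hs h1) p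
    exact ⟨I, nhdsWithin_mono _ hs h2, h3⟩

lemma deriv_nonneg (h : IsMCF X T) (ht : t ∈ Ioo 0 T) {p q : S}
    (hm : IsLocalMin (fun z : S × S => ‖X t z.1 - X t z.2‖ ^ 2) (p, q)) :
    ∃ d, 0 ≤ d ∧ HasDerivAt (fun s => ‖X s p - X s q‖ ^ 2) d t := by
  have ht' : t ∈ Ico 0 T := ⟨ht.1.le, ht.2⟩
  have k : ∀ p : S, ContDiffAt ℝ 2 (X t ∘ (chartAt R2 p).symm) (chartAt R2 p p) := fun p =>
    (contDiffAt_chart (h.slice ht') p (mem_chart_target R2 p))
      |>.of_le (WithTop.coe_le_coe.2 (le_top : (2 : ℕ∞) ≤ ⊤))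
  have k' : ∀ p : S, Function.Injective (fderiv ℝ (X t ∘ (chartAt R2 p).symm) (chartAt R2 p p)) :=
    fun p => by rw [fderiv_chart (h.slice ht')]; exact h.immersion t ht' p
  have e : ∀ p : S, (chartAt R2 p).symm (chartAt R2 p p) = p := fun p =>
    (chartAt R2 p).left_inv (mem_chart_source R2 p)
  have h1 := two_point (k p) (k q) (k' p) (k' q) (by
    have k1 : ContinuousAt (fun z : R2 × R2 => ((chartAt R2 p).symm z.1, (chartAt R2 q).symm z.2))
        (chartAt R2 p p, chartAt R2 q q) :=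
      (((chartAt R2 p).continuousAt_symm (mem_chart_target R2 p)).comp_of_eq continuousAt_fst
        rfl).prodMk (((chartAt R2 q).continuousAt_symm (mem_chart_target R2 q)).comp_of_eq
          continuousAt_snd rfl)
    have k2 : IsLocalMin (fun z : S × S => ‖X t z.1 - X t z.2‖ ^ 2)
        ((fun z : R2 × R2 => ((chartAt R2 p).symm z.1, (chartAt R2 q).symm z.2))
          (chartAt R2 p p, chartAt R2 q q)) := by simpa only [e] using hm
    exact IsLocalMin.comp_continuous (g := fun z : R2 × R2 =>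
      ((chartAt R2 p).symm z.1, (chartAt R2 q).symm z.2)) k2 k1)
  simp only [Function.comp_apply, e] at h1
  exact ⟨_, mul_nonneg zero_le_two h1, ((h.flow t ht p).sub (h.flow t ht q)).norm_sq⟩

/-- **Embeddedness is preserved.** -/
theorem injective [CompactSpace S] [T2Space S] (h : IsMCF X T) (h0 : Function.Injective (X 0))
    (ht : t ∈ Ico 0 T) : Function.Injective (X t) := by
  choose V hV hVi using h.unif_inj ht.2
  set W : Set (S × S) := ⋃ p, interior (V p) ×ˢ interior (V p) with hW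
  have hWo : IsOpen W := isOpen_iUnion fun p => isOpen_interior.prod isOpen_interior
  have hWi : ∀ s ∈ Icc 0 t, ∀ z ∈ W, X s z.1 = X s z.2 → z.1 = z.2 := fun s hs z hz => by
    obtain ⟨p, h1, h2⟩ := mem_iUnion.1 hz
    exact hVi p s hs (interior_subset h1) (interior_subset h2)
  obtain ⟨W', h1, h2, h3⟩ := normal_exists_closure_subset (isClosed_diagonal (X := S)) hWo
    fun z hz => mem_iUnion.2 ⟨z.1, mem_interior_iff_mem_nhds.2 (hV _), by
      rw [← show z.1 = z.2 from hz]; exact mem_interior_iff_mem_nhds.2 (hV _)⟩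
  have hK : IsCompact W'ᶜ := h1.isClosed_compl.isCompact
  set D : ℝ × S × S → ℝ := fun z => ‖X z.1 z.2.1 - X z.1 z.2.2‖ ^ 2 with hD
  have hDc : ContinuousOn D (Icc 0 t ×ˢ univ) := by
    have k := h.smooth.continuousOn
    have hs : Icc 0 t ⊆ Ico 0 T := Icc_subset_Ico_right ht.2
    exact ((k.comp (f := fun z : ℝ × S × S => (z.1, z.2.1)) (by fun_prop)
      fun z hz => ⟨hs hz.1, trivial⟩).sub (k.comp (f := fun z : ℝ × S × S => (z.1, z.2.2))
        (by fun_prop) fun z hz => ⟨hs hz.1, trivial⟩)).norm.pow 2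
  have hZ : IsCompact ({0} ×ˢ W'ᶜ ∪ Icc 0 t ×ˢ (W'ᶜ ∩ closure W')) :=
    (isCompact_singleton.prod hK).union (isCompact_Icc.prod (hK.inter_right isClosed_closure))
  obtain ⟨m, hm, h4⟩ := hZ.exists_forall_le' (f := D) (a := 0) (hDc.mono (by
    rintro z (hz | hz)
    · exact ⟨by rw [show z.1 = 0 from hz.1]; exact ⟨le_rfl, ht.1⟩, trivial⟩
    · exact ⟨hz.1, trivial⟩)) (by
    intro z hz
    refine pow_pos (norm_pos_iff.2 (sub_ne_zero.2 fun k => ?_)) 2
    rcases hz with hz | hz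
    · rw [show z.1 = 0 from hz.1] at k
      exact hz.2 (h2 (h0 k))
    · exact hz.2.1 (h2 (hWi _ hz.1 _ (h3 hz.2.2) k)))
  intro p q hpq
  by_contra hne
  have hK' : (p, q) ∈ W'ᶜ := fun k => hne (hWi t ⟨ht.1, le_rfl⟩ _ (h3 (subset_closure k)) hpq)
  have ht1 : 0 < t + 1 := by linarith [ht.1]
  have hε : 0 < m / (t + 1) := by positivity
  obtain ⟨⟨s, z⟩, ⟨h5, h6⟩, h7⟩ := (isCompact_Icc.prod hK).exists_isMinOn
    (f := fun z => D z + m / (t + 1) * z.1) ⟨(t, p, q), ⟨ht.1, le_rfl⟩, hK'⟩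
    ((hDc.mono (prod_mono_right (subset_univ _))).add (by fun_prop))
  have h8 : D (s, z) < m := by
    have k1 : D (s, z) + m / (t + 1) * s ≤ D (t, p, q) + m / (t + 1) * t :=
      h7 (a := (t, p, q)) ⟨⟨ht.1, le_rfl⟩, hK'⟩
    have k2 : D (t, p, q) = 0 := by simp [hD, hpq]
    have k3 : m / (t + 1) * t < m := by
      rw [div_mul_eq_mul_div, div_lt_iff₀ ht1]; linarith
    have k4 : 0 ≤ m / (t + 1) * s := mul_nonneg hε.le h5.1
    linarith
  have h9 : 0 < s := lt_of_le_of_ne h5.1 fun k => (h4 (s, z) (Or.inl ⟨k.symm, h6⟩)).not_gt h8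
  have h10 : z ∉ closure W' := fun k => (h4 (s, z) (Or.inr ⟨h5, h6, k⟩)).not_gt h8
  obtain ⟨d, h11, h12⟩ := h.deriv_nonneg (p := z.1) (q := z.2) ⟨h9, h5.2.trans_lt ht.2⟩ (by
    filter_upwards [isClosed_closure.isOpen_compl.mem_nhds h10] with y hy
    have k1 : D (s, z) + m / (t + 1) * s ≤ D (s, y) + m / (t + 1) * s :=
      h7 (a := (s, y)) ⟨h5, fun k => hy (subset_closure k)⟩
    exact le_of_add_le_add_right k1)
  have h13 := (h12.add ((hasDerivAt_id s).const_mul (m / (t + 1)))).tendsto_slope_zero_left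
  have h14 : d + m / (t + 1) * 1 ≤ 0 := by
    refine le_of_tendsto h13 ?_
    filter_upwards [Ioo_mem_nhdsLT (neg_lt_zero.2 h9)] with r hr
    have k1 : D (s, z) + m / (t + 1) * s ≤ D (s + r, z) + m / (t + 1) * (s + r) :=
      h7 (a := (s + r, z)) ⟨⟨by linarith [hr.1], by linarith [hr.2, h5.2]⟩, h6⟩
    exact mul_nonpos_of_nonpos_of_nonneg (inv_nonpos.2 hr.2.le) (sub_nonneg.2 k1)
  linarith

theorem isEmb [CompactSpace S] [T2Space S] (h : IsMCF X T) (h0 : Function.Injective (X 0))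
    (ht : t ∈ Ico 0 T) : IsEmb (X t) := ⟨h.slice ht, h.injective h0 ht, h.immersion t ht⟩

end IsMCF

end Vale.Agent.P218N.Top
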