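import Vale.Agent.P218N.Top.Glue
import Vale.Agent.P218N.Top.Brakke2
import Vale.Agent.P218N.B.All
import Vale.Agent.P218N.B.Out
import Vale.Agent.P218N.A.Limit

/-! The final statement, from the blocks C and D. -/

open MeasureTheory Set Filter Topology Metric
open scoped Manifold ContDiff

namespace Vale.Agent.P218N.Top

open Vale.Agent.P218 Vale.Agent.P218N.H Vale.Agent.P218N.B
open Vale.Agent.P218N.C (EndsStmt)

theorem rankStmt : RankStmt := fun _ _ _ _ _ _ _ h1 h2 h3 h4 h5 h6 =>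
  A.rankC_limit covStmt h1 h2 h3 h4 h5 h6

theorem utf_of_almostSmooth (hC : EndsStmt) (hD : ModelOfEnds) {μ : ℝ → Measure E3}
    (hμ : IsIntegralBrakkeFlow 2 μ) (h0 : μ 0 univ < ⊤) (x₀ : E3) {t₀ : ℝ} (ht : 0 < t₀)
    (h : AlmostSmooth μ t₀) : UniqueTangentFlow μ x₀ t₀ :=
  utf_of_unique hμ h0 ht
    (unique_of_blocks structStmt' outStmt rankStmt C.frankel hC hD hμ h0 x₀ ht h)

theorem utf_of_mcf (hC : EndsStmt) (hD : ModelOfEnds) {S : Type} [TopologicalSpace S]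
    [ChartedSpace R2 S] [IsManifold (𝓡 2) ∞ S] [CompactSpace S] [T2Space S] {X : ℝ → S → R3}
    {T : ℝ} (h : IsMCF X T) (h0 : Function.Injective (X 0)) {μ : ℝ → Measure R3}
    (hμ : ∀ t ∈ Ico 0 T, μ t = area (range (X t))) (x₀ : R3) {t₀ : ℝ} (ht : 0 < t₀)
    (hT : t₀ ≤ T) : UniqueTangentFlow μ x₀ t₀ := by
  have h1 : 0 < t₀ / 2 := half_pos ht
  obtain ⟨ν, h2, h3⟩ := h.exists_brakke h0 (t₁ := t₀ / 2) ⟨h1, by linarith⟩
  obtain ⟨h4, h5⟩ := almostSmooth_of_emb (S := S) (μ := ν) (T := T - t₀ / 2) (fun s hs =>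
    ⟨X (s + t₀ / 2), h.isEmb h0 ⟨by linarith [hs.1], by linarith [hs.2]⟩, h3 s hs⟩) h1
    (by linarith)
  refine (utf_of_almostSmooth hC hD h2 h4 x₀ h1 h5).congr h1 fun s hs => ?_
  rw [h3 _ ⟨by linarith [hs.1], by linarith [hs.2]⟩, hμ _ ⟨by linarith [hs.1], by linarith [hs.2]⟩,
    show t₀ / 2 + s + t₀ / 2 = t₀ + s by ring]
  rfl

theorem result_of (hC : EndsStmt) (hD : ModelOfEnds) :
    (∀ (S : Type) [TopologicalSpace S] [ChartedSpace R2 S] [IsManifold (𝓡 2) ∞ S] [CompactSpace S]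
      [T2Space S] (X : ℝ → S → R3) (T : ℝ), IsMCF X T → Function.Injective (X 0) →
      ∀ μ : ℝ → Measure R3, (∀ t ∈ Ico 0 T, μ t = area (range (X t))) →
      ∀ (x₀ : R3) (t₀ : ℝ), 0 < t₀ → t₀ ≤ T → UniqueTangentFlow μ x₀ t₀) ∧
    ∀ μ : ℝ → Measure R3, IsIntegralBrakkeFlow 2 μ → μ 0 univ < ⊤ →
      ∀ (x₀ : R3) (t₀ : ℝ), 0 < t₀ →
      ((∃ (ε : ℝ) (g : ℕ), 0 < ε ∧ ∀ᵐ t : ℝ, t ∈ Ioo (t₀ - ε) t₀ →
          ∃ M : Set R3, IsSurface M ∧ GenusLE M g ∧ μ t = area M) ∨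
        ∃ (M : Set R3) (g : ℕ) (ν : ℝ → Measure R3), IsShrinker M ∧ GenusLE M g ∧
          IsTangentFlow 2 μ x₀ t₀ ν ∧ ν (-1) = area M) →
      UniqueTangentFlow μ x₀ t₀ := by
  refine ⟨fun S _ _ _ _ _ X T h h0 μ hμ x₀ t₀ ht hT => utf_of_mcf hC hD h h0 hμ x₀ ht hT, ?_⟩
  rintro μ hμ h0 x₀ t₀ ht (⟨ε, g, hε, h⟩ | ⟨M, g, ν, h1, h2, h3, h4⟩)
  · exact utf_of_almostSmooth hC hD hμ h0 x₀ ht (almostSmooth_of hε h)
  · exact utf_of_shrinker hC hD hμ h0 ht h1 h2 ⟨ν, h3, h4⟩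

end Vale.Agent.P218N.Top
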