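import Vale.Agent.P218N.G.Final

/-! Uniqueness of the tangent flow from a model when almost all slices lie in a given class. -/

open MeasureTheory Set Filter Topology Metric
open scoped ENNReal NNReal RealInnerProductSpace

namespace Vale.Agent.P218N.Top

open Vale.Agent.P218 Vale.Agent.P218.H313 Vale.Agent.P218N.G
open Vale.Agent.P218.H552 (BF NN)
open Vale.Agent.P218.H313.A1 (ti dil)

set_option linter.unusedSectionVars false
set_option linter.unusedVariables false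

variable {E : Type*} [NormedAddCommGroup E] [InnerProductSpace ℝ E] [FiniteDimensional ℝ E]
  [MeasurableSpace E] [BorelSpace E]
variable {m : ℕ}

/-- the rescaled flow from the time `s₁` on, almost all slices lying in `M` -/
structure Fl (m : ℕ) (N : ℝ → Measure E) (T : ℝ → E → Submodule ℝ E) (H : ℝ → E → E)
    (s₁ Λ : ℝ) (M : Set (Measure E)) : Prop where
  rf : RF m N T H s₁
  en : Energy N (fun s => FA (N s)) s₁
  good : ∀ᵐ s : ℝ, s₁ ≤ s → s ∈ {s | IntSl m (N s) (T s) ∧ N s ∈ M}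
  pos : 0 < Λ
  ratio : ∀ s, s₁ ≤ s → ∀ (x : E) (r : ℝ), 0 < r → (N s).real (closedBall x r) ≤ Λ * r ^ m

lemma le_ti {t₀ ε s : ℝ} (hε : 0 < ε) (hs : Real.log (1 / ε) ≤ s) : t₀ - ε ≤ ti t₀ s := by
  unfold ti
  have h2 : Real.exp (-s) ≤ Real.exp (-Real.log (1 / ε)) := Real.exp_le_exp.2 (by linarith)
  rw [Real.exp_neg (Real.log (1 / ε)), Real.exp_log (by positivity), one_div, inv_inv] at h2
  linarith

theorem exists_fl {μ : ℝ → Measure E} (hμ : IsIntegralBrakkeFlow m μ) (h0 : μ 0 univ < ⊤)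
    (x₀ : E) {t₀ : ℝ} (ht : 0 < t₀) {M : Set (Measure E)} {ε : ℝ} (hε : 0 < ε)
    (hp : ∀ᵐ t : ℝ, t ∈ Ioo (t₀ - ε) t₀ → μ t ∈ M)
    (hM : ∀ ν ∈ M, ∀ lam : ℝ, 0 < lam → dil m lam x₀ ν ∈ M) :
    ∃ (N : ℝ → Measure E) (T : ℝ → E → Submodule ℝ E) (H : ℝ → E → E) (s₁ Λ : ℝ),
      Fl m N T H s₁ Λ M ∧ limitSet N = tangentSlices m μ x₀ t₀ ∧
      ((limitSet N).Subsingleton → TangentFlowUnique m μ x₀ t₀) := by
  obtain ⟨T, H, s₀, hRF, hint⟩ := exists_RF' hμ h0 x₀ ht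
  obtain ⟨T', H', hB, -⟩ := A1.exists_BF_slice hμ
  set s₁ := max (max s₀ (2 * H552.tau0 t₀))
    (max (Real.log (1 / (t₀ / 2))) (Real.log (1 / (ε / 2)))) with hs₁
  have k1 : s₀ ≤ s₁ := (le_max_left _ _).trans (le_max_left _ _)
  have k2 : 2 * H552.tau0 t₀ ≤ s₁ := (le_max_right _ _).trans (le_max_left _ _)
  have k3 : Real.log (1 / (t₀ / 2)) ≤ s₁ := (le_max_left _ _).trans (le_max_right _ _)
  have k4 : Real.log (1 / (ε / 2)) ≤ s₁ := (le_max_right _ _).trans (le_max_right _ _)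
  have hlim : limitSet (fun s => NN m μ x₀ t₀ (s / 2)) = tangentSlices m μ x₀ t₀ := by
    rw [limitSet_half, H552.tangentSlices_eq hB h0 x₀ ht]
  refine ⟨fun s => NN m μ x₀ t₀ (s / 2), T, H, s₁,
    Real.exp (1 / 4) * ((√(t₀ / 2))⁻¹ ^ m * (μ 0).real univ) + 1,
    ⟨hRF.later k1, ?_, ?_, by positivity, fun s hs x r hr => ?_⟩, hlim, fun h => ?_⟩
  · have h1 := energy_half (energy_NN hB h0 x₀ ht) k2
    have e : (fun s => H552.th m μ x₀ t₀ (s / 2)) = fun s => FA (NN m μ x₀ t₀ (s / 2)) := by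
      ext s
      rw [H552.th_eq]
      rfl
    rwa [e] at h1
  · filter_upwards [hint, A1.ae_time t₀ hp] with s h1 h2 h3
    refine ⟨h1 (k1.trans h3), ?_⟩
    rw [A1.NN_half]
    refine hM _ (h2 ⟨?_, A1.ti_lt _ _⟩) _ (Real.exp_pos _)
    have := le_ti (t₀ := t₀) (half_pos hε) (k4.trans h3)
    linarith
  · have h1 := le_ti (t₀ := t₀) (half_pos ht) (k3.trans hs)
    refine (A1.ratio_bound hB h0 x₀ ht (by linarith) x hr).trans ?_
    exact mul_le_mul_of_nonneg_right (by linarith) (by positivity)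
  · rw [unique_iff hB h0 x₀ ht, ← hlim]
    exact h

variable {N : ℝ → Measure E} {T : ℝ → E → Submodule ℝ E} {H : ℝ → E → E} {s₁ Λ : ℝ}
  {M : Set (Measure E)} {κ : Measure E}

/-- good times with vanishing dissipation along which the flow converges to a given limit -/
theorem Fl.exists_seq (h : Fl m N T H s₁ Λ M) (hκ : κ ∈ limitSet N) :
    ∃ t : ℕ → ℝ, (∀ i, s₁ ≤ t i ∧ N (t i) ∈ M ∧ GSlice m (N (t i)) (T (t i)) (H (t i))) ∧
      WeakTendsto (fun i => N (t i)) κ ∧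
      Tendsto (fun i => dis (N (t i)) (T (t i)) (H (t i))) atTop (𝓝 0) := by
  obtain ⟨t, ht, htg, htd⟩ := exists_times' h.rf h.good
  obtain ⟨k, hk, hw, -⟩ := exists_near h.rf h.en.slow h.good hκ ht
  have hF := (tendsto_FA h.rf h.en.slow hκ).2
  have hnat : Tendsto (fun k : ℕ => s₁ + k) atTop atTop :=
    tendsto_atTop_add_const_left _ _ tendsto_natCast_atTop_atTop
  have h1 : Tendsto (fun k : ℕ => FA (N (s₁ + k)) - FA (N (s₁ + (k + 1 : ℕ)))) atTop (𝓝 0) := by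
    have := (hF.comp hnat).sub ((hF.comp hnat).comp (tendsto_add_atTop_nat 1))
    rwa [sub_self] at this
  refine ⟨fun i => t (k i), fun i => ⟨?_, (htg _).1.2, (htg _).2⟩, hw, ?_⟩
  · have h2 : (0 : ℝ) ≤ k i := Nat.cast_nonneg _
    linarith [(ht (k i)).1]
  · exact (squeeze_zero (fun _ => dis_nonneg) htd h1).comp hk

variable {P : Type*} [NormedAddCommGroup P] [NormedSpace ℝ P] {J : Type*} [Fintype J]
  {V : P → E → ℝ} {V' : P →ₗ[ℝ] (E → ℝ)} {psi : J → E → ℝ}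
  {lam : P → J → ℝ} {c K : ℝ} {q : ℕ} {β : ℝ}

theorem Fl.subsingleton [FiniteDimensional ℝ P] (hE : Module.finrank ℝ E = m + 1)
    (h : Fl m N T H s₁ Λ M) (hM : Model m V V' psi lam c K q β) {k : ℕ} (hk : 1 ≤ k)
    (hκ : (k : ℝ≥0∞) • sig m (V 0) ∈ limitSet N) {M' : Set (Measure E)} (hMM : M ⊆ M')
    (hSC : SC m M' ((k : ℝ≥0∞) • sig m (V 0)) (V 0) c K q) : (limitSet N).Subsingleton := by
  have hlf := hκ.1
  have h1 : ∀ᶠ s in nearF m N T H ((k : ℝ≥0∞) • sig m (V 0)) ⊓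
      𝓟 {s | IntSl m (N s) (T s) ∧ N s ∈ M}, IntSl m (N s) (T s) ∧ N s ∈ M :=
    (inf_le_right : _ ≤ 𝓟 {s | IntSl m (N s) (T s) ∧ N s ∈ M}) (mem_principal_self _)
  obtain ⟨C, b, hC, hb, hb1, hloj⟩ := hM.loj_near hE (energyCmp hE) h.rf hk rfl hSC
    inf_le_left (h1.mono fun s hs => hMM hs.2) (h1.mono fun s hs => hs.1)
  exact subsingleton_of_loj h.rf h.en h.good hκ hC hb hb1 hloj

end Vale.Agent.P218N.Top
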