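import Vale.Agent.P218N.Top.Curv
import Vale.Agent.P218N.Top.Main

/-! From the definitions of the statement to the ones of the proof. -/

open MeasureTheory Set Filter Topology Metric
open scoped NNReal RealInnerProductSpace ContDiff Manifold

namespace Vale.Agent.P218N.Top

open Vale.Agent.P218 Vale.Agent.P218.H313 Vale.Agent.P218N.H Vale.Agent.P218N.B Vale.Agent.P218N.G
open Vale.Agent.P214 (IsSmoothSubmanifold)
open Vale.Agent.P218N.GB (RankC)
open Vale.Agent.P218N.C (ARm zs Shk TopS FrankelStmt EndsStmt)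
open Vale.Agent.P218.H552 (NN)

set_option linter.unusedSectionVars false
set_option linter.unusedVariables false

variable {M : Set E3}

theorem surf_of_sub (h : IsSmoothSubmanifold 2 M) : Surf M := by
  refine Surf.of_contDiffAt fun p hp => ?_
  obtain ⟨Φ, h1, h2, h3, L, h4, h5⟩ := h p hp
  have hL : Module.finrank ℝ Lᗮ = 1 := by
    have := L.finrank_add_finrank_orthogonal
    rw [h4, finrank_E3] at this
    omega
  obtain ⟨⟨n, hn⟩, hn0, hn1⟩ := finrank_eq_one_iff'.1 hL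
  have hn0' : n ≠ 0 := fun h0 => hn0 (Subtype.ext h0)
  have hmem : ∀ z : E3, z ∈ L ↔ ⟪n, z⟫ = 0 := fun z => by
    refine ⟨fun hz => Submodule.inner_left_of_mem_orthogonal hz hn, fun hz => ?_⟩
    rw [← L.orthogonal_orthogonal, Submodule.mem_orthogonal]
    intro u hu
    obtain ⟨c, hc⟩ := hn1 ⟨u, hu⟩
    rw [← show c • n = u from congrArg Subtype.val hc, real_inner_smul_left, hz, mul_zero]
  have hs := Φ.open_source.mem_nhds h1
  have ht := Φ.open_target.mem_nhds (Φ.map_source h1)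
  have hd : HasFDerivAt Φ (fderiv ℝ Φ p) p :=
    ((h2.contDiffAt hs).differentiableAt (by simp)).hasFDerivAt
  have hd' : HasFDerivAt Φ.symm (fderiv ℝ Φ.symm (Φ p)) (Φ p) :=
    ((h3.contDiffAt ht).differentiableAt (by simp)).hasFDerivAt
  refine ⟨fun y => ⟪n, Φ y⟫, ?_, fun h0 => ?_, ?_⟩
  · filter_upwards [hs] with y hy
    exact contDiffAt_const.inner ℝ (h2.contDiffAt (Φ.open_source.mem_nhds hy))
  · have k1 : HasFDerivAt (fun y => ⟪n, Φ y⟫) ((innerSL ℝ n).comp (fderiv ℝ Φ p)) p :=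
      (innerSL ℝ n).hasFDerivAt.comp p hd
    rw [k1.fderiv] at h0
    have k2 : HasFDerivAt Φ (fderiv ℝ Φ p) (Φ.symm (Φ p)) := by rwa [Φ.left_inv h1]
    have k3 := ((k2.comp (Φ p) hd').congr_of_eventuallyEq (f₁ := id) (by
      filter_upwards [ht] with z hz using (Φ.right_inv hz).symm)).unique (hasFDerivAt_id _)
    have k4 := congrArg (fun A : E3 →L[ℝ] ℝ => A (fderiv ℝ Φ.symm (Φ p) n)) h0
    have k5 := congrArg (fun A : E3 →L[ℝ] E3 => A n) k3
    simp only [ContinuousLinearMap.comp_apply, innerSL_apply_apply, ContinuousLinearMap.id_apply,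
      zero_apply] at k4 k5
    rw [k5, inner_self_eq_zero] at k4
    exact hn0' k4
  · filter_upwards [hs] with y hy
    rw [← hmem]
    refine ⟨fun hM => (h5.subset ⟨y, ⟨hM, hy⟩, rfl⟩).1, fun hL => ?_⟩
    obtain ⟨y', k1, k2⟩ := h5.symm.subset ⟨hL, Φ.map_source hy⟩
    rw [← Φ.injOn k1.2 hy k2]
    exact k1.1

theorem GenusLE.rankC {g : ℕ} (h : GenusLE M g) : RankC M (2 * g) := by
  intro ι _ u hu hb
  obtain ⟨e⟩ : Nonempty (Fin (2 * g + 1) ↪ ι) :=
    Function.Embedding.nonempty_of_card_le (by simpa using hb)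
  obtain ⟨m, h1, w, h2⟩ := h (fun i => u (e i)) fun i => hu _
  refine ⟨Function.extend e m 0, fun h0 => h1 (funext fun i => ?_), w, fun x => ?_⟩
  · rw [← e.injective.extend_apply m 0 i, h0]
    rfl
  · rw [h2]
    refine Finset.sum_of_injOn e e.injective.injOn (fun _ _ => Finset.mem_univ _) (fun j _ hj => ?_)
      fun i _ => by rw [e.injective.extend_apply]
    rw [Function.extend_apply' _ _ _ (by simpa using hj)]
    simp

theorem IsShrinker.vel (h : IsShrinker M) : ∀ x ∈ M, velM M x = 0 := by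
  intro x hx
  have hM := surf_of_sub h.1.2
  obtain ⟨f, u, r, k, -, c, hu, -⟩ := hM.exists_tchart finrank_E3 hx univ_mem
  have e : f.gr x u 0 = x := by simp [Frame.gr, hu]
  have h1 := f.contDiff_gr x c.smooth
  have h2 := inj_gr (f := f) (p := x) (contDiff_one' c.smooth) 0
  have h3 : ∀ᶠ y in 𝓝 (0 : E2), f.gr x u y ∈ M := by
    filter_upwards [ball_mem_nhds (0 : E2) c.r_pos] with y hy
    exact c.gr_mem (mem_ball_zero_iff.1 hy)
  have h4 := h.2 _ 0 h1 h2 h3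
  rwa [meanCurv_eq_Hv hM (contDiff_two h1).contDiffAt h2 h3,
    nor_eq_sub hM (h1.differentiable (by simp) _) h2 h3, e, ← velM_eq hM hx] at h4

variable {μ : ℝ → Measure E3} {x₀ : E3} {t₀ : ℝ}

/-- uniqueness implies convergence -/
theorem utf_of_unique (hμ : IsIntegralBrakkeFlow 2 μ) (h0 : μ 0 univ < ⊤) (ht : 0 < t₀)
    (h : TangentFlowUnique 2 μ x₀ t₀) : UniqueTangentFlow μ x₀ t₀ := by
  obtain ⟨T, H, hB⟩ := H552.exists_BF hμ
  have hS := H552.slow_NN hB h0 x₀ ht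
  have hsub := (unique_iff hB h0 x₀ ht).1 h
  rw [H552.tangentSlices_eq hB h0 x₀ ht] at hsub
  obtain ⟨κ, hκ⟩ := hS.nonempty_limitSet
  have hlf := hκ.1
  have key : ∀ lam : ℕ → ℝ, Tendsto lam atTop atTop →
      ∀ s < 0, WeakTendsto (fun i => rescaled 2 μ x₀ t₀ (lam i) s) (H552.ext 2 κ s) := by
    intro lam hlam s hs φ h1 h2
    have hτ : Tendsto (fun i => Real.log (lam i)) atTop atTop := Real.tendsto_log_atTop.comp hlam
    have h3 : WeakTendsto (fun i => NN 2 μ x₀ t₀ (Real.log (lam i))) κ := by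
      intro ψ k1 k2
      refine tendsto_of_subseq_tendsto fun ns hns => ?_
      obtain ⟨κ', ms, k3, k4, k5⟩ := hS.exists_subseq (hτ.comp hns)
      have k6 : κ' = κ := hsub ⟨k3, _, (hτ.comp hns).comp k4.tendsto_atTop, k5⟩ hκ
      exact ⟨ms, k6 ▸ k5 ψ k1 k2⟩
    refine (H552.extend hB h0 x₀ ht hτ h3 hs φ h1 h2).congr' ?_
    filter_upwards [hlam.eventually_gt_atTop 0] with i hi
    rw [Real.exp_log hi]
  exact ⟨h, H552.ext 2 κ, ⟨fun s hs => H552.locFin_ext 2 κ hs, fun i => (i : ℝ),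
    tendsto_natCast_atTop_atTop, key _ tendsto_natCast_atTop_atTop⟩, key⟩

lemma weak_congr {μ' : ℝ → Measure E3} {t₀' ε : ℝ} (hε : 0 < ε)
    (h : ∀ s ∈ Ioo (-ε) 0, μ' (t₀' + s) = μ (t₀ + s)) {lam : ℕ → ℝ} (hl : Tendsto lam atTop atTop)
    {s : ℝ} (hs : s < 0) {ν : Measure E3}
    (hw : WeakTendsto (fun i => rescaled 2 μ' x₀ t₀' (lam i) s) ν) :
    WeakTendsto (fun i => rescaled 2 μ x₀ t₀ (lam i) s) ν := by
  intro φ h1 h2
  refine (hw φ h1 h2).congr' ?_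
  have h3 : Tendsto (fun i => s / lam i ^ 2) atTop (𝓝 0) :=
    tendsto_const_nhds.div_atTop ((tendsto_pow_atTop two_ne_zero).comp hl)
  filter_upwards [hl.eventually_gt_atTop 0, h3.eventually (lt_mem_nhds (neg_lt_zero.2 hε))]
    with i h4 h5
  rw [rescaled, rescaled, h _ ⟨h5, div_neg_of_neg_of_pos hs (by positivity)⟩]

/-- tangent flows only depend on the times shortly before `t₀` -/
theorem UniqueTangentFlow.congr {μ' : ℝ → Measure E3} {t₀' ε : ℝ} (hε : 0 < ε)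
    (h : ∀ s ∈ Ioo (-ε) 0, μ' (t₀' + s) = μ (t₀ + s)) (hu : UniqueTangentFlow μ' x₀ t₀') :
    UniqueTangentFlow μ x₀ t₀ := by
  have h' : ∀ s ∈ Ioo (-ε) 0, μ (t₀ + s) = μ' (t₀' + s) := fun s hs => (h s hs).symm
  obtain ⟨h1, ν, ⟨h2, lam, h3, h4⟩, h5⟩ := hu
  refine ⟨?_, ν, ⟨h2, lam, h3, fun s hs => weak_congr hε h h3 hs (h4 s hs)⟩,
    fun l hl s hs => weak_congr hε h hl hs (h5 l hl s hs)⟩
  rintro ν₁ ν₂ ⟨a1, l1, a2, a3⟩ ⟨b1, l2, b2, b3⟩
  exact h1 ν₁ ν₂ ⟨a1, l1, a2, fun s hs => weak_congr hε h' a2 hs (a3 s hs)⟩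
    ⟨b1, l2, b2, fun s hs => weak_congr hε h' b2 hs (b3 s hs)⟩

/-- tangent flows have bounded area ratios -/
theorem exists_ARm (hμ : IsIntegralBrakkeFlow 2 μ) (h0 : μ 0 univ < ⊤) (ht : 0 < t₀)
    {κ : Measure E3} (hκ : κ ∈ tangentSlices 2 μ x₀ t₀) : ∃ Λ : ℝ, 0 < Λ ∧ ARm Λ κ := by
  obtain ⟨N, T, H, s₁, Λ, hN, hlim, -⟩ := exists_fl hμ h0 x₀ ht (M := univ) one_pos
    (Eventually.of_forall fun _ _ => trivial) fun _ _ _ _ => trivial
  rw [← hlim] at hκ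
  obtain ⟨t, h1, h2, -⟩ := hN.exists_seq hκ
  have hlf := hκ.1
  refine ⟨Λ, hN.pos, fun x r hr => open_le isOpen_ball h2 (Eventually.of_forall fun i => ?_)⟩
  have := hN.rf.fin _ (h1 i).1
  have hΛ := hN.pos
  exact (measure_mono ball_subset_closedBall).trans ((ENNReal.le_ofReal_iff_toReal_le
    (measure_ne_top _ _) (by positivity)).2 (hN.ratio _ (h1 i).1 x r hr))

/-- one tangent flow is a smooth shrinker of finite genus with multiplicity one -/
theorem utf_of_shrinker (hC : EndsStmt) (hD : ModelOfEnds) (hμ : IsIntegralBrakkeFlow 2 μ)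
    (h0 : μ 0 univ < ⊤) (ht : 0 < t₀) {S : Set E3} {g : ℕ} (hS : IsShrinker S) (hg : GenusLE S g)
    (hκ : area S ∈ tangentSlices 2 μ x₀ t₀) : UniqueTangentFlow μ x₀ t₀ := by
  obtain ⟨w, hw, rfl⟩ := exists_shr (surf_of_sub hS.1.2) hS.1.1 hS.vel
  obtain ⟨Λ, h1, h2⟩ := exists_ARm hμ h0 ht hκ
  exact utf_of_unique hμ h0 ht
    (unique_of_ends hD hμ h0 x₀ ht (hC Λ _ w ⟨⟨hw, h1, h2⟩, hg.rankC⟩) hκ)

theorem almostSmooth_of {ε : ℝ} {g : ℕ} (hε : 0 < ε) (h : ∀ᵐ t : ℝ, t ∈ Ioo (t₀ - ε) t₀ →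
    ∃ M : Set E3, IsSurface M ∧ GenusLE M g ∧ μ t = area M) : AlmostSmooth μ t₀ :=
  ⟨ε, 2 * g, hε, h.mono fun t ht h1 => by
    obtain ⟨M, h2, h3, h4⟩ := ht h1
    exact ⟨M, surf_of_sub h2.2, h2.1, h3.rankC, h4⟩⟩

end Vale.Agent.P218N.Top
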